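import Vale.Agent.P057TP.Alg3
import Vale.Agent.P057MA.Sheet

/-!
Removal of coordinates of one level along a frame, and the statements that lead to the event.
-/

set_option linter.all false

open Matrix Finset
open scoped Real
open Vale.Agent.P267.H775 Vale.Agent.P057G Vale.Agent.P057PC Vale.Agent.P057ST

namespace Vale.Agent.P057TP

noncomputable section

variable {C W S : Type}

/-- a tower without the arithmetic conditions -/
structure Tow.Ok0 (T : Tow) (s : ℕ) : Prop where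
  pos : ∀ a, 0 < T.lv a
  le : ∀ a, T.lv a ≤ s
  hom : ∀ a, (T.q a).IsWeightedHomogeneous T.lv (T.lv a)
  low : ∀ a, ∀ j ∈ (T.q a).vars, T.lv j < T.lv a
  pd : T.G.PosDef
  blk : ∀ a b, T.lv a ≠ T.lv b → T.G a b = 0
  el1 : ∀ a, T.lv a ≠ 1 → T.el a = 0

theorem Tow.Ok.ok0 {T : Tow} {s : ℕ} {N : ℝ} (h : T.Ok s N) : T.Ok0 s :=
  ⟨h.pos, h.le, h.hom, h.low, h.pd, h.blk, h.el1⟩

theorem Tow.Ok0.ok {T : Tow} {s : ℕ} {N : ℝ} (h : T.Ok0 s)
    (h1 : ∀ z : T.ι → ℤ, z ≠ 0 → T.el ⬝ᵥ z = 0 → 1 ≤ qq T.G (toR z))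
    (h2 : ∀ x : T.ι → ℝ, (toR T.el ⬝ᵥ x) ^ 2 ≤ N ^ 2 * qq T.G x) : T.Ok s N :=
  ⟨h.pos, h.le, h.hom, h.low, h.pd, h.blk, h.el1, h1, h2⟩

/-- a bound for the masses of all systems on a tower, also with the Gram matrix halved -/
def Tow.mz (T : Tow) [Fintype W] (cl : W → C) (S : Type) [Fintype S] (m : ℕ) : ℝ :=
  2 ^ Fintype.card (Lb T cl S m) * ms (Gam T cl S m) fun _ => 0

/-- the system without lower order terms -/
def Tow.cen (T : Tow) (W S : Type) : Sys T W S :=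
  ⟨⟨fun _ a => MvPolynomial.map MvPolynomial.C (T.q a)⟩, fun _ _ => 0⟩

/-- the squared length of the positions below level `j` -/
def Sys.nlo [Fintype W] [DecidableEq W] [Fintype S] {T : Tow} (Z : Sys T W S) (cl : W → C)
    (m j : ℕ) (z : Lb T cl S m → ℤ) : ℝ :=
  qq (Gam T cl S m) fun l => if T.lv l.cd < j then Z.ps cl m z l else 0

/-- the family of a matrix -/
def Fam.lin {R ι κ : Type} [CommRing R] [Fintype κ] (W S : Type) (M : Matrix ι κ R) :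
    Fam R ι κ W S := ⟨fun _ a => ∑ b, MvPolynomial.C (MvPolynomial.C (M a b)) * MvPolynomial.X b⟩

/-- the linear form pulled back along a polynomial map -/
def pel (T : Tow) {κ : Type} (ψ : T.ι → MvPolynomial κ ℤ) (b : κ) : ℤ :=
  ∑ x, T.el x * MvPolynomial.coeff (Finsupp.single b 1) (ψ x)

/-- the offsets pulled back along a family -/
def poff [DecidableEq W] {T : Tow} {κ : Type} (Z : Sys T W S) (Ψ : Fam ℤ T.ι κ W S) (c : Finset W)
    (t : S) : ℤ := Z.off c t + ∑ x, T.el x * MvPolynomial.constantCoeff (Ψ.at' (some t) c x)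

/-- the coordinates of level `e` are split into remaining and removed directions -/
structure Frame (T : Tow) (e : ℕ) where
  ι : Type
  [fi : Fintype ι]
  [de : DecidableEq ι]
  A : Type
  [fA : Fintype A]
  [dA : DecidableEq A]
  lv : ι → ℕ
  r : {x // T.lv x ≠ e} ≃ {b // lv b ≠ e}
  L : Matrix T.ι ι ℤ
  a : Matrix T.ι A ℤ
  P : Matrix ι T.ι ℤ
  K : Matrix A T.ι ℤ
  B : Matrix ι T.ι ℝ
  D : Matrix A T.ι ℝ
  G : Matrix ι ι ℝ
  GA : Matrix A A ℝ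

attribute [instance] Frame.fi Frame.de Frame.fA Frame.dA

namespace Frame

variable {T : Tow} {e : ℕ} (F : Frame T e)

structure Ok : Prop where
  oL : P057MA.Ort T.lv F.lv F.L
  oa : P057MA.Ort T.lv (fun _ => e) F.a
  oP : P057MA.Ort F.lv T.lv F.P
  oK : P057MA.Ort (fun _ => e) T.lv F.K
  oB : P057MA.Ort F.lv T.lv F.B
  oD : P057MA.Ort (fun _ => e) T.lv F.D
  oG : P057MA.Ort F.lv F.lv F.G
  rl : ∀ x, F.lv (F.r x) = T.lv x
  rL : ∀ x b, F.L x.1 b = if b = (F.r x).1 then 1 else 0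
  rB : ∀ x y, F.B (F.r x) y = if y = x.1 then 1 else 0
  rG : ∀ x y, F.G (F.r x) (F.r y) = T.G x y
  LP : F.L * F.P + F.a * F.K = 1
  PL : F.P * F.L = 1
  Ka : F.K * F.a = 1
  Pa : F.P * F.a = 0
  KL : F.K * F.L = 0
  BL : F.B * mR F.L = 1
  Da : F.D * mR F.a = 1
  tri : F.B * mR F.a = 0 ∨ F.D * mR F.L = 0
  qq : ∀ v, qq T.G v = qq F.G (F.B *ᵥ v) + qq F.GA (F.D *ᵥ v)
  pd : F.G.PosDef
  pdA : F.GA.PosDef

/-- the removed directions as a tower -/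
abbrev tA : Tow where
  ι := F.A
  lv _ := e
  q _ := 0
  G := F.GA
  el _ := 0

/-- the old coordinates as polynomials in the remaining ones -/
def psi (j : F.A → MvPolynomial F.ι ℤ) (x : T.ι) : MvPolynomial F.ι ℤ :=
  ∑ b, MvPolynomial.C (F.L x b) * MvPolynomial.X b + ∑ α, MvPolynomial.C (F.a x α) * j α

/-- the tower on the remaining coordinates -/
abbrev tow (j : F.A → MvPolynomial F.ι ℤ) : Tow where
  ι := F.ι
  lv := F.lv
  q b := MvPolynomial.X b - ∑ x, MvPolynomial.C (F.B b x) *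
    (MvPolynomial.map (Int.castRingHom ℝ) (F.psi j x) -
      MvPolynomial.bind₁ (fun y => MvPolynomial.map (Int.castRingHom ℝ) (F.psi j y)) (T.q x))
  G := F.G
  el := pel T (F.psi j)

variable [Fintype W] [DecidableEq W] [Fintype S] {cl : W → C} {m : ℕ}

/-- the old coordinates on the piece `n` -/
def fam (J : Fam ℤ F.A F.ι W S) (n : Lb F.tA cl S m → ℤ) : Fam ℤ T.ι (F.tow J.top).ι W S :=
  ⟨fun o x => (Fam.lin W S F.L).fn o x + ∑ α, MvPolynomial.C (MvPolynomial.C (F.a x α)) *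
    (J.fn o α + MvPolynomial.C (lift n o α))⟩

/-- the system on the piece `n` -/
def sys (Z : Sys T W S) (J : Fam ℤ F.A F.ι W S) (n : Lb F.tA cl S m → ℤ) :
    Sys (F.tow J.top) W S where
  fam := ⟨fun o b => MvPolynomial.X b - ∑ x, MvPolynomial.C (MvPolynomial.C (F.B b x)) *
    (lamZ ℝ ((F.fam J n).fn o x) - (Z.fam.cmp (F.fam J n)).fn o x)⟩
  off := poff Z (F.fam J n)

variable (cl m) in
/-- the positions in the removed directions on the piece zero -/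
def dv (Z : Sys T W S) (J : Fam ℤ F.A F.ι W S) : Fam ℝ F.tA.ι (F.tow J.top).ι W S :=
  ⟨fun o α => ∑ x, MvPolynomial.C (MvPolynomial.C (F.D α x)) *
    (lamZ ℝ ((F.fam J (0 : Lb F.tA cl S m → ℤ)).fn o x) -
      (Z.fam.cmp (F.fam J (0 : Lb F.tA cl S m → ℤ))).fn o x)⟩

/-- the hypotheses on the integer family -/
structure Jok (J : Fam ℤ F.A F.ι W S) : Prop where
  ok : J.Ok (fun _ => e) F.lv
  low : ∀ b α, (F.B * mR F.a) b α ≠ 0 → ∀ v ∈ (J.top α).vars, F.lv v < e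

end Frame

/-- freezing of a pinned Gaussian factor -/
def FRZ : Prop :=
  ∀ (X Nn Y : Type) (e : Nn × Y ≃ X) (Q H : X → ℝ) (Q' QA : Nn → Y → ℝ) (D : Nn → ℝ)
    (c' cA B κ σ R δ M : ℝ), 0 < c' → 0 < cA → (∀ n y, 0 ≤ Q' n y ∧ 0 ≤ QA n y) → (∀ n, 0 ≤ D n) →
    (∀ n y, Q (e (n, y)) = Q' n y + QA n y) → (∀ n y, Q' n y ≤ R ^ 2 → |√(QA n y) - √(D n)| ≤ δ) →
    (∃ M0 ≤ M, HasSum (fun x => c' * cA * Real.exp (-(π / 2 * Q x))) M0) →
    (∀ n, ∃ M0 ≤ M, HasSum (fun y => c' * Real.exp (-(π / 2 * Q' n y))) M0) →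
    (∃ M0 ≤ M, HasSum (fun n => cA * Real.exp (-(π / 2 * D n))) M0) →
    (∀ x, |H x| ≤ B) → 0 ≤ κ → κ ≤ B → 0 < σ → 1 ≤ M → 2 ≤ R → 0 ≤ δ → 40 * δ * R ≤ 1 →
    8 * B * M ^ 2 * Real.exp (-(R ^ 2 / 3)) ≤ σ →
    σ ≤ ∑' x, c' * cA * Real.exp (-(π * Q x)) * (H x - κ) →
    ∃ n, D n ≤ R ^ 2 ∧
      σ / (2 * M) ≤ ∑' y, c' * Real.exp (-(π * Q' n y)) * (H (e (n, y)) - (κ - 40 * δ * R * B))

/-- triangular centres do not increase the mass, also with the Gram matrix halved -/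
def MTRI : Prop :=
  ∀ (L : Type) [Fintype L] [DecidableEq L] (lv : L → ℕ) (G : Matrix L L ℝ) (p : (L → ℤ) → L → ℝ),
    G.PosDef → (∀ a b, lv a ≠ lv b → G a b = 0) → Tri lv p → ms G p ≤ ms G (fun _ => 0) ∧
      ∃ M0 ≤ 2 ^ Fintype.card L * ms G fun _ => 0,
        HasSum (fun z => ng G 0 * Real.exp (-(π / 2 * qq G (toR z - p z)))) M0

/-- masses in terms of the complexity -/
def MASS (s : ℕ) : Prop :=
  ∃ c : ℕ, ∀ (N : ℝ) (P : ℕ → ℝ) (T : Tow) (C W S : Type) [Fintype W] [DecidableEq W] [Fintype S]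
    (cl : W → C) (m : ℕ), Lad s N c P → T.Ok s N → T.Cx N P →
    (Fintype.card W + Fintype.card S : ℝ) ≤ P 1 → (Fintype.card (Lb T cl S m) : ℝ) ≤ P 1 ^ c ∧
      T.mz cl S m ≤ Real.exp (P 1 ^ c) ∧ Real.exp (-P 1 ^ c) ≤ ng (Gam T cl S m) 0

/-- virtual points: on the centred system the alternating sums of homogeneous polynomials are
taken at points whose positions are sums of positions of labels -/
def VP : Prop :=
  ∀ (s : ℕ) (T : Tow) (C W S : Type) [Fintype W] [DecidableEq W] [Fintype S] (cl : W → C) (m : ℕ)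
    (y : Lb T cl S m → ℝ) (o : Option S) (A : Finset W), T.Ok0 s → Set.InjOn cl A →
    ∃ p : Finset W → T.ι → ℝ,
      (∀ B ⊆ A, ∀ b, T.lv b < m → T.ps (p B) b = pt (y - (T.cen W S).pr cl m y) o B b) ∧
      ∀ (R : MvPolynomial T.ι ℝ) (d : ℕ), R.IsWeightedHomogeneous T.lv d → d < m →
        (o = none → A.card = d) →
        altL A (MvPolynomial.eval (lift y o) (MvPolynomial.map MvPolynomial.C R)) =
          dlt (fun B => MvPolynomial.eval (p B) R) A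

/-- the algebra of a cut -/
def CUTA : Prop :=
  ∀ (s : ℕ) (T : Tow) (C W S : Type) [Fintype W] [DecidableEq W] [Fintype S] (cl : W → C)
    (m e : ℕ) (Z : Sys T W S) (F : Frame T e) (J : Fam ℤ F.A F.ι W S), T.Ok0 s → Z.Ok → F.Ok →
    F.Jok J → 1 ≤ e → e ≤ s → e < m →
    (F.tow J.top).Ok0 s ∧
    (∀ N i, i ≠ e → (F.tow J.top).dm i = T.dm i ∧ (F.tow J.top).yy N i = T.yy N i) ∧
    (F.tow J.top).dm e + Fintype.card F.A = T.dm e ∧
    (∀ N, (F.tow J.top).yy N e + Real.log F.GA.det / 2 = T.yy N e) ∧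
    (∀ y, (F.tow J.top).ps y = F.B *ᵥ T.ps (ap (F.psi J.top) y)) ∧
    (∀ y, toR (F.tow J.top).el ⬝ᵥ y = toR T.el ⬝ᵥ ap (F.psi J.top) y) ∧
    ∀ n : Lb F.tA cl S m → ℤ, (F.sys Z J n).Ok ∧ (F.fam J n).Ok T.lv F.lv ∧
      (F.fam J n).top = F.psi J.top ∧
      (∀ (x : {x // T.lv x ≠ e}) o, (F.fam J n).fn o x.1 = MvPolynomial.X (F.r x).1 ∧
        (F.sys Z J n).fam.fn o (F.r x).1 = (Z.fam.cmp (F.fam J n)).fn o x.1) ∧
      (∀ f z, ∀ c ∈ cells cl, ∀ t,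
        (F.sys Z J n).F cl m f z c t = Z.F cl m f ((F.fam J n).sub cl m z) c t) ∧
      ∀ z, (F.sys Z J n).ps cl m z = Fam.sb (T := F.tow J.top) (Fam.lin W S F.B)
          (Z.ps cl m ((F.fam J n).sub cl m z)) ∧
        toR n + (F.dv cl m Z J).sb (toR z) = Fam.sb (T := F.tA) (Fam.lin W S F.D)
          (Z.ps cl m ((F.fam J n).sub cl m z)) ∧
        Z.nrm cl m ((F.fam J n).sub cl m z) ^ 2 = (F.sys Z J n).nrm cl m z ^ 2 +
          qq (Gam F.tA cl S m) (toR n + (F.dv cl m Z J).sb (toR z))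

/-- a cut with pinned positions -/
def CUT : Prop :=
  ∀ (s : ℕ) (T : Tow) (C W S : Type) [Fintype W] [DecidableEq W] [Fintype S] (cl : W → C)
    (m e : ℕ) (Z : Sys T W S) (F : Frame T e) (J : Fam ℤ F.A F.ι W S) (x : Lb F.tA cl S m → ℝ)
    (H : (Lb T cl S m → ℤ) → ℝ) (B κ σ R δ M : ℝ), T.Ok0 s → Z.Ok → F.Ok → F.Jok J → 1 ≤ e →
    e ≤ s → e < m → (∀ (n : Lb F.tA cl S m → ℤ) z, (F.sys Z J n).nrm cl m z ≤ R →
      qq (Gam F.tA cl S m) ((F.dv cl m Z J).sb (toR z) - x) ≤ δ ^ 2) →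
    T.mz cl S m ≤ M → (F.tow J.top).mz cl S m ≤ M → F.tA.mz cl S m ≤ M → 0 ≤ κ → 0 < σ → 2 ≤ R →
    0 ≤ δ → 40 * δ * R ≤ 1 → 8 * B * M ^ 2 * Real.exp (-(R ^ 2 / 3)) ≤ σ → Z.St cl m H B κ σ →
    ∃ n : Lb F.tA cl S m → ℤ, qq (Gam F.tA cl S m) (toR n + x) ≤ R ^ 2 ∧
      (F.sys Z J n).St cl m (fun z => H ((F.fam J n).sub cl m z)) B (κ - 40 * δ * R * B)
        (σ / (2 * M))

/-- the tower with one coordinate of level `j` -/
abbrev one (j : ℕ) : Tow where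
  ι := Unit
  lv _ := j
  q _ := 0
  G := 1
  el _ := 0

/-- the difference between an integer family and the form `k` of the centres -/
def Sys.df {T : Tow} (Z : Sys T W S) (j : ℕ) (k : T.ι → ℤ) (J : Fam ℤ Unit T.ι W S) :
    Fam ℝ (one j).ι T.ι W S :=
  ⟨fun o u => lamZ ℝ (J.fn o u) - ∑ a, MvPolynomial.C (MvPolynomial.C (k a : ℝ)) * Z.fam.fn o a⟩

/-- restriction to a sheet of a short primitive form whose centre is pinned modulo an integer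
family in the lower levels -/
def SHEET (s : ℕ) : Prop :=
  ∃ c : ℕ, ∀ (N : ℝ) (P : ℕ → ℝ) (T : Tow) (C W S : Type) [Fintype W] [DecidableEq W] [Fintype S]
    (cl : W → C) (m j : ℕ) (Z : Sys T W S) (H : (Lb T cl S m → ℤ) → ℝ) (B κ σ K : ℝ) (k : T.ι → ℤ)
    (J : Fam ℤ Unit T.ι W S) (x : Lb (one j) cl S m → ℝ), Lad s N c P → T.Ok s N → T.Cx N P →
    Z.Ok → j < m → (Fintype.card W + Fintype.card S : ℝ) ≤ P j → B ≤ Real.exp (P j) →
    Real.exp (-P j) ≤ κ → Real.exp (-P 0) ≤ σ → Z.St cl m H B κ σ → 1 ≤ K → Real.log K ≤ P j →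
    (∀ a, T.lv a ≠ j → k a = 0) → (∃ w, k ⬝ᵥ w = 1) →
    (∀ v : T.ι → ℝ, (toR k ⬝ᵥ v) ^ 2 ≤ K * qq T.G v) → J.Ok (fun _ => j) T.lv →
    (∀ o, ∀ v ∈ (J.fn o ()).vars, T.lv v < j) →
    (∀ y, T.Ball j y → |MvPolynomial.eval y ((Z.df j k J).top ())| ≤ Real.exp (-P j ^ c)) →
    (∀ z, Z.nlo cl m j z ≤ Real.exp (P (s + 1) ^ 2) →
      ∀ l, |(Z.df j k J).sb (toR z) l - x l| ≤ Real.exp (-P j ^ c)) →
    ∃ (T' : Tow) (Z' : Sys T' W S) (Ψ : Fam ℤ T.ι T'.ι W S), T'.Ok s N ∧ Z'.Ok ∧ Up (j + 1) T' T ∧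
      Sub cl m Z' Z Ψ (Real.exp (P (s + 1))) (P 0 ^ c) ∧
      Z'.St cl m (fun z => H (Ψ.sub cl m z)) B ((1 - 1 / P 0) * κ) (σ * Real.exp (-P 1 ^ c)) ∧
      (∀ e, e < j → T'.dm e = T.dm e ∧ T'.yy N e = T.yy N e) ∧
      T'.dm j + 1 = T.dm j ∧ T'.yy N j ≤ T.yy N j + Real.log K / 2 + 1

end

end Vale.Agent.P057TP
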