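import Vale.Agent.P057TP.Alg2

/-!
Substitutions of labels and their composition.
-/

set_option linter.all false

open Finset MvPolynomial
open Vale.Agent.P267.H775 Vale.Agent.P057G

namespace Vale.Agent.P057TP

noncomputable section

variable {D W S R ι κ ν : Type} [CommRing R]

theorem eval_bind {σ τ A : Type} [CommRing A] (x : τ → A) (g : σ → MvPolynomial τ A)
    (p : MvPolynomial σ A) : eval x (bind₁ g p) = eval (fun b => eval x (g b)) p :=
  eval₂Hom_bind₁ (RingHom.id A) x g p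

/-- the family with coefficients read in `R` -/
def Fam.cast (R : Type) [CommRing R] (Ψ : Fam ℤ ι κ W S) : Fam R ι κ W S :=
  ⟨fun o a => lamZ R (Ψ.fn o a)⟩

/-- composition over one ring -/
def Fam.cmr (Φ : Fam R ι κ W S) (Ψ : Fam R κ ν W S) : Fam R ι ν W S :=
  ⟨fun o a => bind₁ (Ψ.fn o) (Φ.fn o a)⟩

theorem Fam.cmp_eq (Φ : Fam R ι κ W S) (Ψ : Fam ℤ κ ν W S) : Φ.cmp Ψ = Φ.cmr (Ψ.cast R) := rfl

theorem lamZ_int (p : MvPolynomial κ (Lam ℤ W)) : lamZ ℤ p = p := by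
  have : (MvPolynomial.map (Int.castRingHom ℤ) : Lam ℤ W →+* Lam ℤ W) = RingHom.id _ :=
    RingHom.ext fun x => by rw [Subsingleton.elim (Int.castRingHom ℤ) (RingHom.id ℤ), MvPolynomial.map_id]; rfl
  rw [lamZ, this, MvPolynomial.map_id]

theorem Fam.cast_int (Ψ : Fam ℤ ι κ W S) : Ψ.cast ℤ = Ψ := by
  cases Ψ; simp only [Fam.cast, lamZ_int]

theorem kt_int : (kt : Lam R W →+* Lam R W).comp (MvPolynomial.map (Int.castRingHom R)) =
    (MvPolynomial.map (Int.castRingHom R)).comp kt := by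
  refine ringHom_ext (fun r => by simp) fun x => ?_
  cases x <;> simp [kt_none, kt_some]

theorem Fam.Ok.cast {Ψ : Fam ℤ ι κ W S} {lv : ι → ℕ} {lw : κ → ℕ} (h : Ψ.Ok lv lw) :
    (Ψ.cast R).Ok lv lw :=
  ⟨fun o a => JH.lamZ (h.hom o a), fun s a => by
    simp only [Fam.cast, lamZ]
    rw [MvPolynomial.map_map, MvPolynomial.map_map, kt_int, ← MvPolynomial.map_map, ← MvPolynomial.map_map, h.pure]⟩

theorem Fam.top_cast (Ψ : Fam ℤ ι κ W S) (a : ι) :
    (Ψ.cast R).top a = MvPolynomial.map (Int.castRingHom R) (Ψ.top a) := by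
  have e : (constantCoeff : Lam R W →+* R).comp (MvPolynomial.map (Int.castRingHom R)) =
      (Int.castRingHom R).comp constantCoeff := ringHom_ext (fun r => by simp) fun x => by simp
  simp only [Fam.top, Fam.cast, lamZ, MvPolynomial.map_map, e]

theorem Fam.at_cast [DecidableEq W] (Ψ : Fam ℤ ι κ W S) (o : Option S) (A : Finset W) (a : ι) :
    (Ψ.cast R).at' o A a = MvPolynomial.map (Int.castRingHom R) (Ψ.at' o A a) := by
  have e : (evA A : Lam R W →+* R).comp (MvPolynomial.map (Int.castRingHom R)) =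
      (Int.castRingHom R).comp (evA A) := RingHom.ext fun x => evA_int A x
  simp only [Fam.at', Fam.cast, lamZ, MvPolynomial.map_map, e]

theorem Fam.Ok.cmr {Φ : Fam R ι κ W S} {Ψ : Fam R κ ν W S} {lv : ι → ℕ} {lw : κ → ℕ}
    {lu : ν → ℕ} (h : Φ.Ok lv lw) (h' : Ψ.Ok lw lu) : (Φ.cmr Ψ).Ok lv lu :=
  ⟨fun o a => JH.bind (h.hom o a) (h'.hom o), fun s a => by
    simp only [Fam.cmr, map_bind₁, h.pure, h'.pure]⟩

theorem Fam.Ok.cmp {Φ : Fam R ι κ W S} {Ψ : Fam ℤ κ ν W S} {lv : ι → ℕ} {lw : κ → ℕ}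
    {lu : ν → ℕ} (h : Φ.Ok lv lw) (h' : Ψ.Ok lw lu) : (Φ.cmp Ψ).Ok lv lu := by
  rw [Fam.cmp_eq]; exact h.cmr h'.cast

theorem Fam.top_cmr (Φ : Fam R ι κ W S) (Ψ : Fam R κ ν W S) (a : ι) :
    (Φ.cmr Ψ).top a = bind₁ Ψ.top (Φ.top a) := map_bind₁ _ _ _

theorem Fam.top_cmp (Φ : Fam R ι κ W S) (Ψ : Fam ℤ κ ν W S) (a : ι) : (Φ.cmp Ψ).top a =
    bind₁ (fun b => MvPolynomial.map (Int.castRingHom R) (Ψ.top b)) (Φ.top a) := by
  rw [Fam.cmp_eq, Fam.top_cmr]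
  congr 2
  funext b
  exact Ψ.top_cast b

theorem Fam.at_cmr [DecidableEq W] (Φ : Fam R ι κ W S) (Ψ : Fam R κ ν W S) (o : Option S)
    (A : Finset W) (a : ι) : (Φ.cmr Ψ).at' o A a = bind₁ (Ψ.at' o A) (Φ.at' o A a) :=
  map_bind₁ _ _ _

theorem Fam.Ok.top_eq {Ψ : Fam R ι κ W S} {lv : ι → ℕ} {lw : κ → ℕ} (h : Ψ.Ok lv lw)
    (o : Option S) (a : ι) : MvPolynomial.map constantCoeff (Ψ.fn o a) = Ψ.top a := by
  classical
  have e : (constantCoeff : Lam R W →+* R).comp kt = constantCoeff :=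
    RingHom.ext constantCoeff_kt
  cases o with
  | none => rfl
  | some s => rw [Fam.top, ← e, ← MvPolynomial.map_map, ← MvPolynomial.map_map, h.pure]

theorem Fam.Ok.top_hom {Ψ : Fam R ι κ W S} {lv : ι → ℕ} {lw : κ → ℕ} (h : Ψ.Ok lv lw) (a : ι) :
    (Ψ.top a).IsWeightedHomogeneous lw (lv a) := JH.top (h.hom none a)

theorem ok_ren {lv : ι → ℕ} {lw : κ → ℕ} {e : ι → κ} (he : ∀ a, lw (e a) = lv a) :
    (Fam.ren W S e).Ok lv lw := ⟨fun _ a => he a ▸ JH.X lw (e a), fun _ _ => rfl⟩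

theorem top_ren (e : ι → κ) (a : ι) : (Fam.ren W S e).top a = X (e a) := map_X _ _

theorem at_ren [DecidableEq W] (e : ι → κ) (o : Option S) (A : Finset W) (a : ι) :
    (Fam.ren W S e).at' o A a = X (e a) := map_X _ _

section sb

variable [DecidableEq W] [Fintype W] [Fintype S] {T T' T'' : Tow} {cl : W → D} {m : ℕ}

/-- the substitution of labels over any ring -/
def Fam.sb (Ψ : Fam R T.ι T'.ι W S) (x : Lb T' cl S m → R) (l : Lb T cl S m) : R :=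
  Ψ.alt (pt x) l.bs l.fc l.cd

theorem cast_pt (z : Lb T cl S m → ℤ) (o : Option S) (A : Finset W) (a : T.ι) :
    ((pt z o A a : ℤ) : R) = pt (fun l => (z l : R)) o A a := by
  simp only [pt, Int.cast_sum, apply_ite (Int.cast : ℤ → R), Int.cast_zero]

theorem Fam.cast_alt (Ψ : Fam ℤ ι T.ι W S) (z : Lb T cl S m → ℤ) (o : Option S) (A : Finset W)
    (a : ι) : ((Ψ.alt (pt z) o A a : ℤ) : R) = (Ψ.cast R).alt (pt fun l => (z l : R)) o A a := by
  simp only [Fam.alt, Int.cast_sum, Int.cast_mul, Int.cast_pow, Int.cast_neg, Int.cast_one]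
  refine sum_congr rfl fun B _ => ?_
  rw [Fam.at_cast, ← funext (cast_pt (R := R) z o B)]
  exact congrArg _ (hom_eval (Int.castRingHom R) _ _)

theorem Fam.toR_sub (Ψ : Fam ℤ T.ι T'.ι W S) (z : Lb T' cl S m → ℤ) :
    toR (Ψ.sub cl m z) = (Ψ.cast ℝ).sb (toR z) := funext fun l => Ψ.cast_alt z _ _ _

/-- the points of the substituted labels -/
theorem Fam.Ok.pt_sb {Ψ : Fam R T.ι T'.ι W S} (h : Ψ.Ok T.lv T'.lv) (x : Lb T' cl S m → R) (s : S)
    {A : Finset W} (hA : Set.InjOn cl A) {a : T.ι} (ha : T.lv a < m) :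
    pt (Ψ.sb x : Lb T cl S m → R) (some s) A a =
      eval (pt x (some s) A) (Ψ.at' (some s) A a) := by
  have e : eval (pt x (some s) A) (Ψ.at' (some s) A a) =
      ∑ B ∈ A.powerset, Ψ.alt (pt x) (some s) B a :=
    (sum_powerset_dlt (fun B => eval (pt x (some s) B) (Ψ.at' (some s) B a)) A).symm
  rw [e, ← evA_lift, ← sum_altL]
  refine sum_congr rfl fun B hB => ?_
  have hB' : Set.InjOn cl B := hA.mono (mem_powerset.1 hB)
  rcases lt_trichotomy B.card (T.lv a) with k | k | k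
  · exact altL_lift (Ψ.sb x) ⟨(a, B, some s), ha, hB', k⟩
  · rw [h.alt_pure x _ k, ← altL_kt (k ▸ lift_hom _ _ a), kt_lift, altL_kt (k ▸ lift_hom _ _ a)]
    exact altL_lift (Ψ.sb x) ⟨(a, B, none), ha, hB', k⟩
  · rw [h.alt_lt x _ k, altL_of_lt (lift_hom _ _ a) k]

theorem Fam.Ok.pt_sub {Ψ : Fam ℤ T.ι T'.ι W S} (h : Ψ.Ok T.lv T'.lv) (z : Lb T' cl S m → ℤ) (s : S)
    {A : Finset W} (hA : Set.InjOn cl A) {a : T.ι} (ha : T.lv a < m) :
    pt (Ψ.sub cl m z) (some s) A a = eval (pt z (some s) A) (Ψ.at' (some s) A a) :=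
  h.pt_sb z s hA ha

/-- alternating sums of a composite family -/
theorem Fam.Ok.alt_cmr {Φ : Fam R ι T.ι W S} {Ψ : Fam R T.ι T'.ι W S} {lv : ι → ℕ}
    (h : Φ.Ok lv T.lv) (h' : Ψ.Ok T.lv T'.lv) (x : Lb T' cl S m → R) {o : Option S} {A : Finset W}
    (hA : Set.InjOn cl A) {a : ι} (ha : lv a < m) (ho : o = none → A.card = lv a) :
    (Φ.cmr Ψ).alt (pt x) o A a = Φ.alt (pt (Ψ.sb x : Lb T cl S m → R)) o A a := by
  cases o with
  | some s =>
    refine sum_congr rfl fun B hB => ?_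
    rw [Fam.at_cmr, eval_bind]
    exact congrArg _ (JH.eval_congr (h.hom _ a) _ fun b hb =>
      (h'.pt_sb x s (hA.mono (mem_powerset.1 hB)) (hb.trans_lt ha)).symm)
  | none =>
    rw [Fam.alt_eq, Fam.alt_eq, Fam.cmr, eval_bind]
    refine JH.altL_congr (ho rfl ▸ h.hom none a) (fun b => JH.eval (h'.hom none b) (lift_hom x _))
      (lift_hom _ _) fun b B hB k => ?_
    have h1 : T.lv b < m := by have := card_le_card hB; have := ho rfl; omega
    rw [← Fam.alt_eq]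
    exact (altL_lift (Ψ.sb x) ⟨(b, B, none), h1, hA.mono hB, k⟩).symm

theorem Fam.Ok.sb_cmr {Φ : Fam R T.ι T'.ι W S} {Ψ : Fam R T'.ι T''.ι W S}
    (h : Φ.Ok T.lv T'.lv) (h' : Ψ.Ok T'.lv T''.lv) (x : Lb T'' cl S m → R) :
    ((Φ.cmr Ψ).sb x : Lb T cl S m → R) = Φ.sb (Ψ.sb x : Lb T' cl S m → R) :=
  funext fun l => h.alt_cmr h' x l.2.2.1 l.2.1 l.card_eq

theorem Fam.Ok.sub_cmp {Φ : Fam ℤ T.ι T'.ι W S} {Ψ : Fam ℤ T'.ι T''.ι W S}
    (h : Φ.Ok T.lv T'.lv) (h' : Ψ.Ok T'.lv T''.lv) (z : Lb T'' cl S m → ℤ) :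
    (Φ.cmp Ψ).sub cl m z = Φ.sub cl m (Ψ.sub cl m z) := by
  rw [Fam.cmp_eq, Fam.cast_int]; exact h.sb_cmr h' z

/-- the centres at substituted labels -/
theorem Sys.Ok.pr_sub {Z : Sys T W S} (h : Z.Ok) {Ψ : Fam ℤ T.ι T'.ι W S} (h' : Ψ.Ok T.lv T'.lv)
    (z : Lb T' cl S m → ℤ) (l : Lb T cl S m) :
    Z.pr cl m (toR (Ψ.sub cl m z)) l = (Z.fam.cmp Ψ).alt (pt (toR z)) l.bs l.fc l.cd := by
  rw [Fam.toR_sub]
  exact (h.fam.alt_cmr h'.cast (toR z) l.2.2.1 l.2.1 l.card_eq).symm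

/-- the label with a renamed coordinate -/
def Lb.ren (e : T.ι → T'.ι) (he : ∀ a, T'.lv (e a) = T.lv a) (l : Lb T cl S m) : Lb T' cl S m :=
  ⟨(e l.cd, l.fc, l.bs), by
    have h := l.2
    refine ⟨(he _).symm ▸ h.1, h.2.1, ?_⟩
    simp only [he]
    exact h.2.2⟩

theorem alt_of_X {Ψ : Fam R ι T.ι W S} (x : Lb T cl S m → R) (l : Lb T cl S m) {a : ι}
    (h : Ψ.fn l.bs a = X l.cd) : Ψ.alt (pt x) l.bs l.fc a = x l := by
  rw [Fam.alt_eq, h, eval_X, altL_lift]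

theorem sub_ren (e : T.ι → T'.ι) (he : ∀ a, T'.lv (e a) = T.lv a) (z : Lb T' cl S m → ℤ)
    (l : Lb T cl S m) : (Fam.ren W S e).sub cl m z l = z (l.ren e he) :=
  alt_of_X z (l.ren e he) rfl

theorem sub_id (z : Lb T cl S m → ℤ) : (Fam.ren W S id).sub cl m z = z :=
  funext fun l => alt_of_X z l rfl

theorem alt_add (Φ Ψ : Fam R ι T.ι W S) (x : Lb T cl S m → R) (o : Option S) (A : Finset W)
    (a : ι) {Θ : Fam R ι T.ι W S} (h : Θ.fn o a = Φ.fn o a + Ψ.fn o a) :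
    Θ.alt (pt x) o A a = Φ.alt (pt x) o A a + Ψ.alt (pt x) o A a := by
  rw [Fam.alt_eq, Fam.alt_eq, Fam.alt_eq, h, map_add, altL_add]

/-- a lift added to the family moves the centres -/
theorem alt_add_lift {Φ Θ : Fam R T.ι T'.ι W S} (c : Lb T cl S m → R) (x : Lb T' cl S m → R)
    (l : Lb T cl S m) (h : Θ.fn l.bs l.cd = Φ.fn l.bs l.cd + C (lift c l.bs l.cd)) :
    Θ.sb x l = Φ.sb x l + c l := by
  rw [Fam.sb, Fam.sb, Fam.alt_eq, Fam.alt_eq, h, map_add, altL_add, eval_C, altL_lift]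

/-- the position of the point of a face is the sum of the positions of the labels -/
theorem Sys.Ok.pt_pr {Z : Sys T W S} (h : Z.Ok) (x : Lb T cl S m → ℝ) (s : S) {A : Finset W}
    (hA : Set.InjOn cl A) {a : T.ι} (ha : T.lv a < m) :
    pt (Z.pr cl m x) (some s) A a = eval (pt x (some s) A) (Z.fam.at' (some s) A a) :=
  h.fam.pt_sb x s hA ha

omit [DecidableEq W] in
theorem pt_sub' {R : Type} [AddCommGroup R] (x y : Lb T cl S m → R) (o : Option S) (A : Finset W)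
    (a : T.ι) : pt (x - y) o A a = pt x o A a - pt y o A a := by
  simp only [pt, ← sum_sub_distrib]
  refine sum_congr rfl fun l _ => ?_
  split_ifs <;> simp

end sb

end

end Vale.Agent.P057TP
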