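import Vale.Agent.P057TP.Defs

/-!
The blocks of the proof.
-/

set_option linter.all false

open Matrix Finset
open Vale.Agent.P267.H775 Vale.Agent.P057G Vale.Agent.P057PC

namespace Vale.Agent.P057TP

noncomputable section

/-- theta values and covolumes in terms of the complexity -/
def THB : Prop :=
  ∃ c : ℕ, ∀ (T : Tow) (s : ℕ) (N : ℝ), T.Ok s N → 1 ≤ N →
    (∀ e, ms (bk T.G fun a => T.lv a = e) (fun _ => 0) ≤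
        Real.exp (T.yy N e + c * (T.dm e + 1) ^ 2) ∧ -(c * (T.dm e + 1) ^ 2) ≤ T.yy N e) ∧
    (T.el = 0 → Real.log N ≤ T.yy N 1 + c * (T.dm 1 + 1) ^ 2)

open Classical in
/-- the counting lemma for closed subsystems of cube systems -/
def CUB : Prop :=
  ∀ (T : Tow) (s : ℕ) (N : ℝ) (C W S : Type) [Fintype W] [DecidableEq W] [Fintype S]
    (cl : W → C) (m : ℕ) (Z : Sys T W S) (Q : Lb T cl S m → Prop) (c : {l // Q l} → ℝ)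
    (d n : ℕ) (Λ η : ℝ) (A : Matrix {l // Q l} {l // Q l} ℝ), T.Ok s N → Z.Ok → Clo Q →
    (∀ l l', Q l → l'.fc = l.fc → l'.bs = l.bs → T.lv l'.cd = T.lv l.cd → Q l') →
    (∀ l, Q l → T.lv l.cd ≤ d) → T.tw.LF d n Λ η → Fintype.card W + Fintype.card S ≤ n →
    A.PosDef → (∀ v, qq A v ≤ Λ / ((n + 1) * (s + 1) ^ s) * qq (bk (Gam T cl S m) Q) v) →
    |ms A (Z.pq cl m Q c) - 1| ≤ η

/-- regularity at one more level, or a certificate -/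
def TEST (s : ℕ) : Prop :=
  ∃ c : ℕ, ∀ (N : ℝ) (P : ℕ → ℝ) (T : Tow) (j : ℕ) (n A : ℝ), Lad s N c P → T.Ok s N → T.Cx N P →
    1 ≤ j → j ≤ s → P (s + 1) ≤ A → 1 ≤ n → Real.log n ≤ A →
    T.LFd (j - 1) ((n + A + P j) ^ c) ((n + A + P j) ^ c) →
    T.LFd j n A ∨
      Cert T N j (Real.exp (A ^ c)) T.dm fun e => T.yy N e + T.dm e * (n + A + P j) ^ c

/-- a certificate removes one coordinate of level `j` -/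
def EVENT (s : ℕ) : Prop :=
  ∃ c : ℕ, ∀ (N : ℝ) (P : ℕ → ℝ) (T : Tow) (C W S : Type) [Fintype W] [DecidableEq W] [Fintype S]
    (cl : W → C) (m j : ℕ) (Z : Sys T W S) (H : (Lb T cl S m → ℤ) → ℝ) (B κ σ K : ℝ)
    (D Y : ℕ → ℝ), Lad s N c P → T.Ok s N → T.Cx N P → Z.Ok → 1 ≤ j → j < m →
    (Fintype.card W + Fintype.card S : ℝ) ≤ P j → B ≤ Real.exp (P j) → Real.exp (-P j) ≤ κ →
    Real.exp (-P 0) ≤ σ → Z.St cl m H B κ σ → 1 ≤ K → Real.log K ≤ P j → Cert T N j K D Y →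
    (∀ e, e < j → D e ≤ P e ∧ Y e ≤ P e) →
    ∃ (T' : Tow) (Z' : Sys T' W S) (Ψ : Fam ℤ T.ι T'.ι W S), T'.Ok s N ∧ Z'.Ok ∧ Up (j + 1) T' T ∧
      Sub cl m Z' Z Ψ (Real.exp (P (s + 1))) (P 0 ^ c) ∧
      Z'.St cl m (fun z => H (Ψ.sub cl m z)) B ((1 - 1 / P 0) * κ) (σ * Real.exp (-P 1 ^ c)) ∧
      (∀ e, e < j → T'.dm e ≤ D e + P (e + 1) ^ c ∧ T'.yy N e ≤ Y e + (D e + 1) * P (e + 1) ^ c) ∧
      T'.dm j + 1 ≤ T.dm j ∧ T'.yy N j ≤ T.yy N j + Real.log K + 1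

/-- regularisation of the levels up to `j` in place -/
def REG (s : ℕ) : Prop :=
  ∃ c : ℕ, ∀ (N : ℝ) (P : ℕ → ℝ) (T : Tow) (C W S : Type) [Fintype W] [DecidableEq W] [Fintype S]
    (cl : W → C) (m j : ℕ) (Z : Sys T W S) (H : (Lb T cl S m → ℤ) → ℝ) (B κ σ : ℝ),
    Lad s N c P → T.Ok s N → T.Cx N P → Z.Ok → j < m → j ≤ s →
    (Fintype.card W + Fintype.card S : ℝ) ≤ P (j + 1) → B ≤ Real.exp (P (j + 1)) →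
    Real.exp (-P (j + 1)) ≤ κ → Real.exp (-P 0) ≤ σ → Z.St cl m H B κ σ →
    ∃ (T' : Tow) (Z' : Sys T' W S) (Ψ : Fam ℤ T.ι T'.ι W S), T'.Ok s N ∧ Z'.Ok ∧ Up (j + 1) T' T ∧
      Sub cl m Z' Z Ψ (Real.exp (P (s + 1))) (P 0 ^ c) ∧
      Z'.St cl m (fun z => H (Ψ.sub cl m z)) B ((1 - 1 / P 0) * κ) (σ * Real.exp (-P 1 ^ c)) ∧
      T.Grow N T' (fun e => P e ^ c) ∧ T'.dm j ≤ T.dm j ∧
      T'.yy N j ≤ T.yy N j + (T.dm j - T'.dm j) * P (j + 1) ^ c ∧ T'.LFd j (P j) (P (j + 1)) ∧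
      T'.LFd (j - 1) (P j) (P j)

/-- copies of the special vertex, Hoelder, more copies, removal of the labels of level `n + 1`
below the cells -/
def CD (s : ℕ) : Prop :=
  ∀ ε : ℝ, 0 < ε → ε ≤ 1 / 10 → ∃ c : ℕ, ∀ (N : ℝ) (P : ℕ → ℝ) (T : Tow) (n : ℕ) (W : Type)
    [Fintype W] [DecidableEq W] (cl : W → Fin n) (Z : Sys T W Unit) (f : ℤ → ℝ) (θ B κ σ : ℝ),
    Lad s N c P → T.Ok s N → T.Cx N P → Z.Ok → n + 1 ≤ s → Unit01 f →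
    Real.exp (-P (s + 1)) ≤ θ → θ ≤ 4 → (cells cl).Nonempty → (Fintype.card W : ℝ) ≤ P (n + 2) →
    B ≤ Real.exp (P (n + 2)) → Real.exp (-P (n + 2)) ≤ κ → 0 < σ → Z.SP cl (n + 2) f θ B κ σ →
    T.LFd (n + 1) (P (n + 1) ^ c) (P (n + 2) ^ c) →
    ∃ p : ℕ, 1 ≤ p ∧ (p : ℝ) ≤ P (n + 1) ^ c ∧ GS (T.scl (n + 1)) n f p ((1 - ε) * θ)

/-- from a signed square grid to a homogeneous grid -/
def GH0 (s : ℕ) : Prop :=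
  ∀ ε : ℝ, 0 < ε → ε ≤ 1 / 10 → ∃ c : ℕ, ∀ (N : ℝ) (T : Tow) (n p : ℕ)
    (Z : Sys T (Fin n × Fin p) (Fin p)) (f : ℤ → ℝ) (θ B κ σ X : ℝ), T.Ok s N → Z.Ok → n ≤ s →
    Unit01 f → 0 ≤ θ → 1 ≤ p → (p : ℝ) ≤ X → (c : ℝ) ≤ X → 0 ≤ κ → 0 < σ →
    Z.St Prod.fst (n + 1) (Z.Ex0 Prod.fst (n + 1) f θ) B κ σ → T.LFd n (X ^ c) (X ^ c) →
    GS T n f p ((1 - ε) * θ)

/-- from a signed point state to a point cell -/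
def PT (s : ℕ) : Prop :=
  ∀ ε : ℝ, 0 < ε → ε ≤ 1 / 10 → ∃ c : ℕ, ∀ (N : ℝ) (T : Tow) (Z : Sys T (Fin 0) Unit) (f : ℤ → ℝ)
    (θ B κ σ : ℝ), T.Ok s N → Z.Ok → Unit01 f → 0 ≤ θ → 0 ≤ κ → 0 < σ →
    Z.St id (s + 1) (Z.Ex0 id (s + 1) f θ) B κ σ → T.LFd s c c → GS T 0 f 1 ((1 - ε) * θ)

/-- the density on a regular point cell is bounded -/
def UB (s : ℕ) : Prop :=
  ∃ c : ℕ, ∀ (N : ℝ) (T : Tow) (f : ℤ → ℝ) (θ : ℝ), T.Ok s N → Unit01 f → GS T 0 f 1 θ →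
    T.LFd s c c → θ ≤ 2

/-- a set without progressions on a regular point cell: an increment on a point or on a grid -/
def START (s : ℕ) : Prop :=
  ∃ η : ℝ, 0 < η ∧ η ≤ 1 / 10 ∧ ∃ c : ℕ, ∀ (N : ℝ) (P : ℕ → ℝ) (T : Tow) (A : Finset ℤ) (θ : ℝ),
    Lad s N c P → T.Ok s N → T.Cx N P → APF (s + 2) A → T.el ≠ 0 → Real.exp (-P (s + 1)) ≤ θ →
    GS T 0 (ind A) 1 θ → T.LFd s (P (s + 1) ^ c) (P (s + 1) ^ c) →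
    ∃ (T' : Tow) (B κ σ : ℝ), T'.Ok s N ∧ T.Grow N T' (fun e => P e ^ c) ∧
      B ≤ Real.exp (P (s + 1) ^ c) ∧ Real.exp (-P (s + 1) ^ c) ≤ κ ∧ Real.exp (-P 1 ^ c) ≤ σ ∧
      ((∃ Z : Sys T' (Fin 0) Unit, Z.Ok ∧
          Z.St id (s + 1) (Z.Ex0 id (s + 1) (ind A) ((1 + η) * θ)) B κ σ) ∨
        ∃ (p : ℕ) (Z : Sys T' (Fin s × Fin p) (Fin p)), 1 ≤ p ∧ (p : ℝ) ≤ P (s + 1) ^ c ∧ Z.Ok ∧
          Z.St Prod.fst (s + 1) (Z.Ex0 Prod.fst (s + 1) (ind A) ((1 + η) * θ)) B κ σ)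

/-- one pure class is merged with the special class -/
def STAGE (s : ℕ) : Prop :=
  ∀ ε : ℝ, 0 < ε → ε ≤ 1 / 10 → ∃ c : ℕ, ∀ (N : ℝ) (P : ℕ → ℝ) (T : Tow) (n p : ℕ) (f : ℤ → ℝ)
    (θ : ℝ), Lad s N c P → T.Ok s N → T.Cx N P → n + 1 ≤ s → Unit01 f →
    Real.exp (-P (s + 1)) ≤ θ → θ ≤ 4 → 1 ≤ p → (p : ℝ) ≤ P (n + 2) → GS T (n + 1) f p θ →
    T.LFd (n + 1) (P (n + 2) ^ c) (P (n + 2) ^ c) →
    ∃ (T' : Tow) (q : ℕ) (Z : Sys T' (Fin n × Fin q) Unit) (B κ σ : ℝ), T'.Ok s N ∧ Z.Ok ∧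
      Up (n + 2) T' T ∧ T.Grow N T' (fun e => P e ^ c) ∧ 1 ≤ q ∧ (q : ℝ) ≤ P (n + 2) ^ c ∧
      B ≤ Real.exp (P (n + 2) ^ c) ∧ Real.exp (-P (n + 2) ^ c) ≤ κ ∧ Real.exp (-P 1 ^ c) ≤ σ ∧
      Z.SP Prod.fst (n + 2) f ((1 - ε) * θ) B κ σ

/-- the descent with backtracking -/
def DOWN (s : ℕ) : Prop :=
  ∀ ε : ℝ, 0 < ε → ε ≤ 1 / 10 → ∀ n : ℕ, n ≤ s → ∃ c : ℕ, ∀ (N : ℝ) (P : ℕ → ℝ) (T : Tow) (p : ℕ)
    (f : ℤ → ℝ) (θ : ℝ), Lad s N c P → T.Ok s N → T.Cx N P → Unit01 f →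
    Real.exp (-P (s + 1)) ≤ θ → θ ≤ 4 → 1 ≤ p → (p : ℝ) ≤ P (n + 1) → GS T n f p θ →
    T.LFd n (P (n + 1) ^ c) (P (n + 1) ^ c) →
    (∃ T' : Tow, T'.Ok s N ∧ T.Grow N T' (fun e => P e ^ c) ∧ GS T' 0 f 1 ((1 - ε) ^ (2 * n) * θ) ∧
      T'.LFd s (P (s + 1)) (P (s + 1))) ∨
    ∃ j, n + 1 ≤ j ∧ j ≤ s ∧ Cert T N j (Real.exp (P (j + 1) ^ c)) (fun e => T.dm e + P (e + 1) ^ c)
      fun e => T.yy N e + (T.dm e + 1) * P (e + 1) ^ c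

/-- the density increment on regular point cells -/
def INC (s : ℕ) : Prop :=
  ∃ η : ℝ, 0 < η ∧ η ≤ 1 ∧ ∃ c : ℕ, ∀ (N : ℝ) (P : ℕ → ℝ) (T : Tow) (A : Finset ℤ) (θ X : ℝ),
    Lad s N c P → T.Ok s N → T.Cx N P → APF (s + 2) A → T.el ≠ 0 → (c : ℝ) ≤ X →
    X ^ c ≤ P (s + 1) → Real.log (P 0) ≤ X → Real.exp (-X) ≤ θ → GS T 0 (ind A) 1 θ → T.LFd s (X ^ c) (X ^ c) →
    ∃ T' : Tow, T'.Ok s N ∧ T.Grow N T' (fun e => P e ^ c) ∧ GS T' 0 (ind A) 1 ((1 + η) * θ) ∧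
      T'.LFd s (P (s + 1)) (P (s + 1))

/-- the quasi-polynomial bound -/
def RESULT : Prop :=
  ∀ k : ℕ, 3 ≤ k → ∃ c : ℝ, 0 < c ∧ ∃ N₀ : ℕ, ∀ N : ℕ, N₀ ≤ N → ∀ A : Finset ℕ, A ⊆ Icc 1 N →
    (∀ a d : ℕ, 0 < d → ¬ ∀ i : ℕ, i < k → a + i * d ∈ A) →
    (A.card : ℝ) ≤ N * Real.exp (-Real.log N ^ c)

end

end Vale.Agent.P057TP
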