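import Vale.Agent.P057TP.Ops
import Mathlib.RingTheory.MvPolynomial.Homogeneous

/-!
Alternating sums over cubes and the ring `Lam`.
-/

set_option linter.all false

open Finset MvPolynomial

namespace Vale.Agent.P057TP

noncomputable section

variable {W R : Type} [DecidableEq W] [CommRing R]

/-- the alternating sum over the subsets of `A` -/
def dlt (g : Finset W → R) (A : Finset W) : R :=
  ∑ B ∈ A.powerset, (-1) ^ (A.card - B.card) * g B

theorem dlt_congr {g h : Finset W → R} {A : Finset W} (e : ∀ B ⊆ A, g B = h B) :
    dlt g A = dlt h A :=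
  sum_congr rfl fun B hB => by rw [e B (mem_powerset.1 hB)]

theorem dlt_insert (g : Finset W → R) {a : W} {A : Finset W} (ha : a ∉ A) :
    dlt g (insert a A) = dlt (fun B => g (insert a B) - g B) A := by
  unfold dlt
  rw [sum_powerset_insert ha, ← sum_add_distrib]
  refine sum_congr rfl fun B hB => ?_
  have h1 := card_le_card (mem_powerset.1 hB)
  have h2 : a ∉ B := fun h => ha (mem_powerset.1 hB h)
  rw [card_insert_of_notMem ha, card_insert_of_notMem h2, Nat.add_sub_add_right,
    Nat.sub_add_comm h1, pow_succ]
  ring

theorem dlt_add (g h : Finset W → R) (A : Finset W) :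
    dlt (fun B => g B + h B) A = dlt g A + dlt h A := by
  simp only [dlt, mul_add, sum_add_distrib]

theorem dlt_sub (g h : Finset W → R) (A : Finset W) :
    dlt (fun B => g B - h B) A = dlt g A - dlt h A := by
  simp only [dlt, mul_sub, sum_sub_distrib]

theorem dlt_mul (r : R) (g : Finset W → R) (A : Finset W) :
    dlt (fun B => r * g B) A = r * dlt g A := by
  simp only [dlt, mul_sum, mul_left_comm]

theorem dlt_sum {ι : Type} (s : Finset ι) (g : ι → Finset W → R) (A : Finset W) :
    dlt (fun B => ∑ i ∈ s, g i B) A = ∑ i ∈ s, dlt (g i) A := by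
  simp only [dlt, mul_sum]; exact sum_comm

/-- inversion, first form -/
theorem dlt_sum_powerset (h : Finset W → R) (A : Finset W) :
    dlt (fun B => ∑ D ∈ B.powerset, h D) A = h A := by
  induction A using Finset.induction_on generalizing h with
  | empty => simp [dlt]
  | insert a A ha ih =>
    rw [dlt_insert _ ha, ← ih fun D => h (insert a D)]
    refine dlt_congr fun B hB => ?_
    rw [sum_powerset_insert fun h => ha (hB h), add_sub_cancel_left]

/-- inversion, second form -/
theorem sum_powerset_dlt (g : Finset W → R) (A : Finset W) :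
    ∑ B ∈ A.powerset, dlt g B = g A := by
  induction A using Finset.induction_on generalizing g with
  | empty => simp [dlt]
  | insert a A ha ih =>
    rw [sum_powerset_insert ha, ih, sum_congr rfl fun B hB =>
      dlt_insert g fun h => ha (mem_powerset.1 hB h), ih]
    ring

theorem dlt_ind (D A : Finset W) (r : R) :
    dlt (fun B => if D ⊆ B then r else 0) A = if D = A then r else 0 := by
  rw [← dlt_sum_powerset (fun B => if D = B then r else 0) A]
  refine dlt_congr fun B _ => ?_
  simp only [sum_ite_eq, mem_powerset]

theorem map_dlt {R' : Type} [CommRing R'] (f : R →+* R') (g : Finset W → R) (A : Finset W) :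
    f (dlt g A) = dlt (fun B => f (g B)) A := by
  simp only [dlt, map_sum, map_mul, map_pow, map_neg, map_one]

theorem abs_dlt_le {g : Finset W → ℝ} {A : Finset W} {K : ℝ} (h : ∀ B ⊆ A, |g B| ≤ K) :
    |dlt g A| ≤ 2 ^ A.card * K := by
  refine (abs_sum_le_sum_abs _ _).trans ((sum_le_card_nsmul _ _ K fun B hB => ?_).trans ?_)
  · rw [abs_mul, abs_pow, abs_neg, abs_one, one_pow, one_mul]; exact h B (mem_powerset.1 hB)
  · simp

/-- the vertices of a monomial -/
def spW (μ : Option W →₀ ℕ) : Finset W := μ.support.eraseNone

theorem mem_spW {μ : Option W →₀ ℕ} {w : W} : w ∈ spW μ ↔ μ (some w) ≠ 0 := by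
  simp [spW]

theorem degree_opt (μ : Option W →₀ ℕ) :
    Finsupp.degree μ = μ none + ∑ w ∈ spW μ, μ (some w) := by
  have h : μ.support ⊆ insertNone (spW μ) := fun x hx => by
    cases x with
    | none => simp
    | some w => simpa [spW] using hx
  rw [Finsupp.degree_apply, sum_subset h fun x _ hx => by simpa using hx, sum_insertNone]

theorem card_spW_le (μ : Option W →₀ ℕ) : (spW μ).card + μ none ≤ Finsupp.degree μ := by
  rw [degree_opt, add_comm, card_eq_sum_ones]
  exact Nat.add_le_add_left (sum_le_sum fun w hw => Nat.one_le_iff_ne_zero.2 (mem_spW.1 hw)) _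

theorem evA_monomial (B : Finset W) (μ : Option W →₀ ℕ) (r : R) :
    evA B (monomial μ r) = if spW μ ⊆ B then r else 0 := by
  unfold evA
  rw [eval_monomial]
  split_ifs with h
  · rw [Finsupp.prod, prod_eq_one, mul_one]
    intro x hx
    cases x with
    | none => simp
    | some w => simp [h (mem_spW.2 (by simpa using hx))]
  · obtain ⟨w, hw, hB⟩ := not_subset.1 h
    rw [Finsupp.prod, prod_eq_zero (i := some w) (by simpa using mem_spW.1 hw), mul_zero]
    simp [hB, mem_spW.1 hw]

theorem evA_C (B : Finset W) (r : R) : evA B (C r : Lam R W) = r := by simp [evA]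

theorem evA_none (B : Finset W) : evA B (X none : Lam R W) = 1 := by simp [evA]

theorem evA_some (B : Finset W) (w : W) :
    evA B (X (some w) : Lam R W) = if w ∈ B then 1 else 0 := by simp [evA]

theorem evA_mon (B A : Finset W) (d : ℕ) : evA B (mon A d : Lam R W) = if A ⊆ B then 1 else 0 := by
  simp only [mon, map_mul, map_prod, map_pow, evA_none, evA_some, one_pow, mul_one,
    prod_ite_zero, prod_const_one]
  rfl

theorem evA_int (B : Finset W) (x : Lam ℤ W) :
    evA B (MvPolynomial.map (Int.castRingHom R) x) = (evA B x : ℤ) := by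
  induction x using MvPolynomial.induction_on with
  | C a => simp [evA]
  | add p q hp hq => simp only [map_add, hp, hq, Int.cast_add]
  | mul_X p i hp =>
    simp only [map_mul, hp, Int.cast_mul, map_X]
    cases i <;> simp [evA]

/-- the alternating sum of the values of an element of `Lam` -/
def altL (A : Finset W) (x : Lam R W) : R := dlt (fun B => evA B x) A

theorem altL_add (A : Finset W) (x y : Lam R W) : altL A (x + y) = altL A x + altL A y := by
  simp only [altL, map_add, dlt_add]

theorem altL_sub (A : Finset W) (x y : Lam R W) : altL A (x - y) = altL A x - altL A y := by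
  simp only [altL, map_sub, dlt_sub]

theorem altL_zero (A : Finset W) : altL A (0 : Lam R W) = 0 := by simp [altL, dlt]

theorem altL_sum {ι : Type} (A : Finset W) (s : Finset ι) (x : ι → Lam R W) :
    altL A (∑ i ∈ s, x i) = ∑ i ∈ s, altL A (x i) := by
  simp only [altL, map_sum, dlt_sum]

theorem altL_C_mul (A : Finset W) (r : R) (x : Lam R W) : altL A (C r * x) = r * altL A x := by
  simp only [altL, map_mul, evA_C, dlt_mul]

theorem altL_monomial (A : Finset W) (μ : Option W →₀ ℕ) (r : R) :
    altL A (monomial μ r) = if spW μ = A then r else 0 := by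
  simp only [altL, evA_monomial, dlt_ind]

theorem altL_mon (A D : Finset W) (d : ℕ) : altL A (mon D d : Lam R W) = if D = A then 1 else 0 := by
  simp only [altL, evA_mon, dlt_ind]

theorem sum_altL (A : Finset W) (x : Lam R W) : ∑ B ∈ A.powerset, altL B x = evA A x :=
  sum_powerset_dlt _ A

theorem altL_eq_sum (A : Finset W) (x : Lam R W) :
    altL A x = ∑ μ ∈ x.support, if spW μ = A then coeff μ x else 0 := by
  conv_lhs => rw [x.as_sum, altL_sum]
  simp only [altL_monomial]

theorem altL_of_lt {A : Finset W} {x : Lam R W} {d : ℕ} (hx : IsHomogeneous x d)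
    (h : d < A.card) : altL A x = 0 := by
  rw [altL_eq_sum]
  refine sum_eq_zero fun μ hμ => if_neg fun e => ?_
  have h1 := card_spW_le μ
  have h2 : Finsupp.degree μ = d := by
    rw [Finsupp.degree_eq_weight_one]; exact hx (mem_support_iff.1 hμ)
  rw [e] at h1
  omega

omit [DecidableEq W] in
theorem kt_C (r : R) : kt (C r : Lam R W) = C r := by simp [kt]

omit [DecidableEq W] in
theorem kt_none : kt (X none : Lam R W) = 0 := by simp [kt]

omit [DecidableEq W] in
theorem kt_some (w : W) : kt (X (some w) : Lam R W) = X (some w) := by simp [kt]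

theorem kt_monomial (μ : Option W →₀ ℕ) (r : R) :
    kt (monomial μ r : Lam R W) = if μ none = 0 then monomial μ r else 0 := by
  rw [monomial_eq, map_mul, kt_C, Finsupp.prod, map_prod]
  split_ifs with h
  · congr 1
    refine prod_congr rfl fun x hx => ?_
    cases x with
    | none => exact absurd h (by simpa using hx)
    | some w => rw [map_pow, kt_some]
  · rw [prod_eq_zero (i := none) (by simpa using h), mul_zero]
    rw [map_pow, kt_none, zero_pow h]

theorem coeff_kt (μ : Option W →₀ ℕ) (x : Lam R W) :
    coeff μ (kt x) = if μ none = 0 then coeff μ x else 0 := by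
  classical
  conv_lhs => rw [x.as_sum, map_sum, coeff_sum]
  simp only [kt_monomial]
  rw [sum_eq_single μ]
  · split_ifs <;> simp
  · intro ν _ hν
    split_ifs <;> simp [coeff_monomial, hν]
  · intro h
    split_ifs <;> simp [notMem_support_iff.1 h]

theorem constantCoeff_kt (x : Lam R W) : constantCoeff (kt x) = constantCoeff x := by
  rw [constantCoeff_eq, coeff_kt]; simp

theorem kt_kt (x : Lam R W) : kt (kt x) = kt x := by
  ext μ; simp only [coeff_kt]; split_ifs <;> rfl

/-- on a face of full size the base variable does not matter -/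
theorem altL_kt {A : Finset W} {x : Lam R W} (hx : IsHomogeneous x A.card) :
    altL A (kt x) = altL A x := by
  conv_lhs => rw [x.as_sum, map_sum, altL_sum]
  rw [altL_eq_sum A x]
  refine sum_congr rfl fun μ hμ => ?_
  rw [kt_monomial]
  split_ifs with h1 h2 h2
  · rw [altL_monomial, if_pos h2]
  · rw [altL_monomial, if_neg h2]
  · have h3 := card_spW_le μ
    have h4 : Finsupp.degree μ = A.card := by
      rw [Finsupp.degree_eq_weight_one]; exact hx (mem_support_iff.1 hμ)
    rw [h2] at h3
    omega
  · exact altL_zero A

omit [DecidableEq W] in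
theorem mon_hom {A : Finset W} {d : ℕ} (h : A.card ≤ d) : IsHomogeneous (mon A d : Lam R W) d := by
  have h1 := (IsHomogeneous.prod A (fun w => (X (some w) : Lam R W)) (fun _ => 1)
    fun w _ => isHomogeneous_X R (some w)).mul
    ((isHomogeneous_X R (none : Option W)).pow (d - A.card))
  rwa [sum_const, smul_eq_mul, mul_one, one_mul, Nat.add_sub_cancel' h] at h1

omit [DecidableEq W] in
theorem kt_mon {A : Finset W} {d : ℕ} :
    kt (mon A d : Lam R W) = if A.card < d then 0 else mon A d := by
  simp only [mon, map_mul, map_prod, map_pow, kt_some, kt_none]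
  split_ifs with h
  · rw [zero_pow (by omega), mul_zero]
  · rw [show d - A.card = 0 by omega, pow_zero, pow_zero]

end

end Vale.Agent.P057TP
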