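import Vale.Agent.P057TP.Alg1

/-!
Joint homogeneity, lifts of labels, values of families.
-/

set_option linter.all false

open Finset MvPolynomial

namespace Vale.Agent.P057TP

noncomputable section

variable {D W S R ι κ ν : Type} [CommRing R]

/-- joint homogeneity in the variables and in the coefficients -/
def JH (lw : κ → ℕ) (p : MvPolynomial κ (Lam R W)) (d : ℕ) : Prop :=
  ∀ β μ, coeff μ (coeff β p) ≠ 0 → Finsupp.weight lw β + Finsupp.degree μ = d

variable {lw : κ → ℕ} {p p' : MvPolynomial κ (Lam R W)} {d d' : ℕ}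

theorem JH.zero (lw : κ → ℕ) (d : ℕ) : JH lw (0 : MvPolynomial κ (Lam R W)) d :=
  fun _ _ h => absurd (by simp) h

theorem JH.add (h : JH lw p d) (h' : JH lw p' d) : JH lw (p + p') d := fun β μ e => by
  rw [coeff_add, coeff_add] at e
  by_cases h1 : coeff μ (coeff β p) = 0
  · exact h' β μ (by rwa [h1, zero_add] at e)
  · exact h β μ h1

theorem JH.neg (h : JH lw p d) : JH lw (-p) d := fun β μ e => h β μ (by simpa using e)

theorem JH.sub (h : JH lw p d) (h' : JH lw p' d) : JH lw (p - p') d := by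
  rw [sub_eq_add_neg]; exact h.add h'.neg

theorem JH.sum {α : Type} (s : Finset α) {f : α → MvPolynomial κ (Lam R W)}
    (h : ∀ i ∈ s, JH lw (f i) d) : JH lw (∑ i ∈ s, f i) d :=
  sum_induction f (fun p => JH lw p d) (fun _ _ => JH.add) (JH.zero lw d) h

theorem JH.mul (h : JH lw p d) (h' : JH lw p' d') : JH lw (p * p') (d + d') := fun β μ e => by
  classical
  rw [coeff_mul, coeff_sum] at e
  obtain ⟨x, hx, e⟩ := exists_ne_zero_of_sum_ne_zero e
  rw [coeff_mul] at e
  obtain ⟨y, hy, e⟩ := exists_ne_zero_of_sum_ne_zero e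
  have h1 := h _ _ (left_ne_zero_of_mul e)
  have h2 := h' _ _ (right_ne_zero_of_mul e)
  rw [← mem_antidiagonal.1 hx, ← mem_antidiagonal.1 hy, map_add, map_add]
  omega

theorem deg_of_hom {x : Lam R W} (hx : IsHomogeneous x d) {μ : Option W →₀ ℕ}
    (h : coeff μ x ≠ 0) : Finsupp.degree μ = d := by
  rw [Finsupp.degree_eq_weight_one]; exact hx h

theorem JH.C {x : Lam R W} (hx : IsHomogeneous x d) : JH lw (C x) d := fun β μ e => by
  classical
  rw [coeff_C] at e
  split_ifs at e with h
  · rw [← h, map_zero, zero_add]; exact deg_of_hom hx e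
  · exact absurd (by simp) e

theorem JH.X (lw : κ → ℕ) (b : κ) : JH lw (X b : MvPolynomial κ (Lam R W)) (lw b) :=
  fun β μ e => by
    classical
    rw [coeff_X'] at e
    split_ifs at e with h
    · rw [coeff_one] at e
      split_ifs at e with h2
      · rw [← h, ← h2, Finsupp.weight_single]; simp
      · exact absurd rfl e
    · exact absurd (by simp) e

theorem JH.coeff (h : JH lw p d) {β : κ →₀ ℕ} (hβ : β ∈ p.support) :
    Finsupp.weight lw β ≤ d ∧ IsHomogeneous (coeff β p) (d - Finsupp.weight lw β) := by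
  obtain ⟨μ, hμ⟩ := ne_zero_iff.1 (mem_support_iff.1 hβ)
  refine ⟨by have := h β μ hμ; omega, fun μ' hμ' => ?_⟩
  have := h β μ' hμ'
  rw [Finsupp.degree_eq_weight_one] at this
  change Finsupp.weight (fun _ => 1) μ' = _
  omega

/-- evaluation of a jointly homogeneous polynomial in a graded setting -/
theorem JH.ind {A : Type} [CommRing A] (Q : ℕ → A → Prop) (h0 : ∀ d, Q d 0) (h1 : Q 0 1)
    (ha : ∀ d x y, Q d x → Q d y → Q d (x + y))
    (hm : ∀ d e x y, Q d x → Q e y → Q (d + e) (x * y)) (f : Lam R W →+* A) (g : κ → A)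
    (hf : ∀ d x, IsHomogeneous x d → Q d (f x)) (hg : ∀ b, Q (lw b) (g b)) (h : JH lw p d) :
    Q d (eval₂ f g p) := by
  rw [eval₂_eq]
  refine sum_induction _ (Q d) (ha d) (h0 d) fun β hβ => ?_
  obtain ⟨h2, h3⟩ := h.coeff hβ
  have hp : ∀ b n, Q (n * lw b) (g b ^ n) := fun b n => by
    induction n with
    | zero => simpa using h1
    | succ n ih => rw [pow_succ, Nat.succ_mul]; exact hm _ _ _ _ ih (hg b)
  have hq : ∀ s : Finset κ, Q (∑ b ∈ s, β b * lw b) (∏ b ∈ s, g b ^ β b) := fun s => by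
    classical
    induction s using Finset.induction_on with
    | empty => simpa using h1
    | insert b s hb ih => rw [sum_insert hb, prod_insert hb]; exact hm _ _ _ _ (hp b _) ih
  have h4 := hm _ _ _ _ (hf _ _ h3) (hq β.support)
  have h5 : ∑ b ∈ β.support, β b * lw b = Finsupp.weight lw β := by
    rw [Finsupp.weight_apply, Finsupp.sum]; rfl
  rwa [h5, Nat.sub_add_cancel h2] at h4

theorem JH.eval (h : JH lw p d) {Y : κ → Lam R W} (hY : ∀ b, IsHomogeneous (Y b) (lw b)) :
    IsHomogeneous (MvPolynomial.eval Y p) d := by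
  rw [← eval₂_id]
  exact h.ind (A := Lam R W) (fun d x => IsHomogeneous x d) (fun d => isHomogeneous_zero _ _ d)
    (isHomogeneous_one _ _) (fun _ _ _ a b => a.add b) (fun _ _ _ _ a b => a.mul b)
    (RingHom.id _) Y (fun _ _ h => h) hY

theorem JH.one (lw : κ → ℕ) : JH lw (1 : MvPolynomial κ (Lam R W)) 0 :=
  JH.C (isHomogeneous_one _ _)

theorem JH.bind (h : JH lw p d) {lu : ν → ℕ} {g : κ → MvPolynomial ν (Lam R W)}
    (hg : ∀ b, JH lu (g b) (lw b)) : JH lu (bind₁ g p) d :=
  h.ind (fun d x => JH lu x d) (JH.zero lu) (JH.one lu) (fun _ _ _ => JH.add)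
    (fun _ _ _ _ => JH.mul) MvPolynomial.C g (fun _ _ h => JH.C h) hg

theorem JH.rename (h : JH lw p d) {lu : ν → ℕ} {e : κ → ν} (he : ∀ b, lu (e b) = lw b) :
    JH lu (rename e p) d := by
  have := h.bind (g := fun b => MvPolynomial.X (e b)) fun b => he b ▸ JH.X lu (e b)
  rwa [show (fun b => (MvPolynomial.X (e b) : MvPolynomial ν (Lam R W))) = MvPolynomial.X ∘ e from
    rfl, ← bind₁_rename, bind₁_X_left] at this

theorem JH.of_hom {q : MvPolynomial κ R} (h : q.IsWeightedHomogeneous lw d) :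
    JH lw (map MvPolynomial.C q : MvPolynomial κ (Lam R W)) d := fun β μ e => by
  classical
  rw [coeff_map, coeff_C] at e
  split_ifs at e with h1
  · rw [← h1, map_zero, add_zero]; exact h e
  · exact absurd rfl e

theorem JH.top (h : JH lw p d) : (map constantCoeff p).IsWeightedHomogeneous lw d := fun β e => by
  rw [coeff_map, constantCoeff_eq] at e
  simpa using h β 0 e

theorem JH.lamZ {p : MvPolynomial κ (Lam ℤ W)} (h : JH lw p d) : JH lw (lamZ R p) d :=
  fun β μ e => h β μ fun h0 => e (by simp [P057TP.lamZ, coeff_map, h0])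

theorem JH.vars (h : JH lw p d) {b : κ} (hb : b ∈ p.vars) : lw b ≤ d := by
  classical
  obtain ⟨β, h1, h2⟩ := (mem_vars b).1 hb
  exact (Finsupp.le_weight_of_ne_zero' lw (Finsupp.mem_support_iff.1 h2)).trans (h.coeff h1).1

theorem JH.eval_congr (h : JH lw p d) {A : Type} [CommRing A] (f : Lam R W →+* A) {x x' : κ → A}
    (hx : ∀ b, lw b ≤ d → x b = x' b) :
    MvPolynomial.eval x (map f p) = MvPolynomial.eval x' (map f p) :=
  eval₂Hom_congr' rfl (fun b hb _ => hx b (h.vars (vars_map _ _ hb))) rfl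

theorem hom_eval {A A' : Type} [CommRing A] [CommRing A'] (f : A →+* A') (Y : κ → A)
    (p : MvPolynomial κ A) : f (eval Y p) = eval (fun b => f (Y b)) (map f p) := by
  rw [eval_map, ← eval₂_id, eval₂_comp_left]; rfl

variable [DecidableEq W]

/-- the alternating sum over a face of full size sees only the pure coefficients -/
theorem JH.altL_congr {A : Finset W} (h : JH lw p A.card) {Y Y' : κ → Lam R W}
    (hY : ∀ b, IsHomogeneous (Y b) (lw b)) (hY' : ∀ b, IsHomogeneous (Y' b) (lw b))
    (e : ∀ b, ∀ B ⊆ A, B.card = lw b → altL B (Y b) = altL B (Y' b)) :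
    altL A (MvPolynomial.eval Y p) = altL A (MvPolynomial.eval Y' p) := by
  let L : (κ → Lam R W) → κ → Lam R W := fun Y b =>
    ∑ B ∈ A.powerset, if B.card ≤ lw b then MvPolynomial.C (altL B (Y b)) * mon B (lw b) else 0
  have h1 : ∀ Y : κ → Lam R W, (∀ b, IsHomogeneous (Y b) (lw b)) →
      altL A (MvPolynomial.eval Y p) =
        altL A (MvPolynomial.eval (fun b => kt (L Y b)) (map kt p)) := fun Y hY => by
    have hL : ∀ b, IsHomogeneous (L Y b) (lw b) := fun b =>
      IsHomogeneous.sum _ _ _ fun B _ => by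
        split_ifs with k
        · exact (mon_hom k).C_mul _
        · exact isHomogeneous_zero _ _ _
    rw [← hom_eval, altL_kt (h.eval hL)]
    refine dlt_congr fun B hB => ?_
    have k0 : B.powerset = A.powerset.filter (· ⊆ B) := by
      ext E; simp only [mem_powerset, mem_filter]; exact ⟨fun k => ⟨k.trans hB, k⟩, fun k => k.2⟩
    rw [hom_eval, hom_eval, show (fun b => evA B (Y b)) = fun b => evA B (L Y b) from ?_]
    funext b
    rw [← sum_altL B (Y b), map_sum, k0, sum_filter]
    refine sum_congr rfl fun E _ => ?_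
    split_ifs with k1 k2 k2
    · rw [map_mul, evA_C, evA_mon, if_pos k1, mul_one]
    · rw [map_zero]; exact altL_of_lt (hY b) (not_le.1 k2)
    · rw [map_mul, evA_mon, if_neg k1, mul_zero]
    · rw [map_zero]
  rw [h1 Y hY, h1 Y' hY', show (fun b => kt (L Y b)) = fun b => kt (L Y' b) from ?_]
  funext b
  rw [map_sum, map_sum]
  refine sum_congr rfl fun B hB => ?_
  split_ifs with k
  · rw [map_mul, map_mul, kt_mon, kt_C, kt_C]
    split_ifs with k2
    · rw [mul_zero, mul_zero]
    · rw [e b B (mem_powerset.1 hB) (by omega)]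
  · rfl

section lift

variable [Fintype W] [Fintype S] {T : Tow} {cl : W → D} {m : ℕ}

omit [DecidableEq W] [Fintype W] [Fintype S] in
theorem Lb.card_le (l : Lb T cl S m) : l.fc.card ≤ T.lv l.cd := by
  obtain ⟨⟨a, A, o⟩, h1, h2, h3⟩ := l
  cases o with
  | none => exact le_of_eq h3
  | some s => exact le_of_lt h3

omit [DecidableEq W] [Fintype W] [Fintype S] in
theorem Lb.card_eq (l : Lb T cl S m) (h : l.bs = none) : l.fc.card = T.lv l.cd := by
  obtain ⟨⟨a, A, o⟩, h1, h2, h3⟩ := l
  cases h; exact h3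

omit [DecidableEq W] [Fintype W] [Fintype S] in
theorem Lb.card_lt (l : Lb T cl S m) {s : S} (h : l.bs = some s) : l.fc.card < T.lv l.cd := by
  obtain ⟨⟨a, A, o⟩, h1, h2, h3⟩ := l
  cases h; exact h3

omit [DecidableEq W] [Fintype W] [Fintype S] in
theorem Lb.ext' {l l' : Lb T cl S m} (h1 : l.cd = l'.cd) (h2 : l.fc = l'.fc) (h3 : l.bs = l'.bs) :
    l = l' := Subtype.ext (Prod.ext h1 (Prod.ext h2 h3))

theorem evA_lift (x : Lb T cl S m → R) (o : Option S) (B : Finset W) (a : T.ι) :
    evA B (lift x o a) = pt x o B a := by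
  unfold lift pt
  rw [map_sum]
  refine sum_congr rfl fun l _ => ?_
  by_cases h1 : l.cd = a ∧ (l.bs = none ∨ l.bs = o)
  · rw [if_pos h1, map_mul, evA_C, evA_mon]
    by_cases h2 : l.fc ⊆ B
    · rw [if_pos h2, if_pos ⟨h1.1, h2, h1.2⟩, mul_one]
    · rw [if_neg h2, if_neg fun h => h2 h.2.1, mul_zero]
  · rw [if_neg h1, if_neg fun h => h1 ⟨h.1, h.2.2⟩, map_zero]

omit [DecidableEq W] in
theorem lift_hom (x : Lb T cl S m → R) (o : Option S) (a : T.ι) :
    IsHomogeneous (lift x o a) (T.lv a) :=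
  IsHomogeneous.sum _ _ _ fun l _ => by
    split_ifs with h
    · exact (mon_hom (h.1 ▸ l.card_le)).C_mul _
    · exact isHomogeneous_zero _ _ _

omit [DecidableEq W] in
theorem kt_lift (x : Lb T cl S m → R) (o : Option S) (a : T.ι) :
    kt (lift x o a) = kt (lift x none a) := by
  unfold lift
  rw [map_sum, map_sum]
  refine sum_congr rfl fun l _ => ?_
  cases hb : l.bs with
  | none => simp
  | some s =>
    rw [if_neg (c := l.cd = a ∧ (some s = none ∨ some s = none)) (by simp), map_zero]
    split_ifs with h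
    · rw [map_mul, kt_mon, if_pos (h.1 ▸ l.card_lt hb), mul_zero]
    · exact map_zero _

omit [DecidableEq W] in
theorem constantCoeff_lift (hp : ∀ a, 0 < T.lv a) (x : Lb T cl S m → R) (o : Option S) (a : T.ι) :
    constantCoeff (lift x o a) = 0 := by
  rw [constantCoeff_eq]
  exact (lift_hom x o a).coeff_eq_zero (by simpa using (hp a).ne)

theorem altL_lift (x : Lb T cl S m → R) (l : Lb T cl S m) :
    altL l.fc (lift x l.bs l.cd) = x l := by
  unfold lift
  rw [altL_sum, sum_eq_single l]
  · rw [if_pos ⟨rfl, Or.inr rfl⟩, altL_C_mul, altL_mon, if_pos rfl, mul_one]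
  · intro l' _ hne
    split_ifs with h
    · rw [altL_C_mul, altL_mon, if_neg, mul_zero]
      intro h2
      refine hne (Lb.ext' h.1 h2 (h.2.elim (fun h3 => ?_) id))
      cases hb : l.bs with
      | none => exact h3
      | some s =>
        have h4 := l.card_lt hb
        have h5 := l'.card_eq h3
        rw [h2, h.1] at h5
        omega
    · exact altL_zero _
  · simp

theorem dlt_pt (x : Lb T cl S m → R) (l : Lb T cl S m) :
    dlt (fun B => pt x l.bs B l.cd) l.fc = x l := by
  simp only [← evA_lift]; exact altL_lift x l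

theorem Fam.alt_eq (Ψ : Fam R ι T.ι W S) (x : Lb T cl S m → R) (o : Option S) (A : Finset W)
    (a : ι) : Ψ.alt (pt x) o A a = altL A (eval (lift x o) (Ψ.fn o a)) := by
  refine sum_congr rfl fun B _ => ?_
  beta_reduce
  rw [hom_eval]
  simp only [evA_lift]
  rfl

/-- the alternating sum vanishes on large faces -/
theorem Fam.Ok.alt_lt {Ψ : Fam R ι T.ι W S} {lv : ι → ℕ} (h : Ψ.Ok lv T.lv) (x : Lb T cl S m → R)
    (o : Option S) {A : Finset W} {a : ι} (hA : lv a < A.card) : Ψ.alt (pt x) o A a = 0 := by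
  rw [Fam.alt_eq]
  exact altL_of_lt (JH.eval (h.hom o a) (lift_hom x o)) hA

/-- on faces of full size the base does not matter -/
theorem Fam.Ok.alt_pure {Ψ : Fam R ι T.ι W S} {lv : ι → ℕ} (h : Ψ.Ok lv T.lv)
    (x : Lb T cl S m → R) (o : Option S) {A : Finset W} {a : ι} (hA : A.card = lv a) :
    Ψ.alt (pt x) o A a = Ψ.alt (pt x) none A a := by
  cases o with
  | none => rfl
  | some s =>
    have h1 := JH.eval (h.hom (some s) a) (lift_hom x (some s))
    have h2 := JH.eval (h.hom none a) (lift_hom x none)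
    rw [← hA] at h1 h2
    rw [Fam.alt_eq, Fam.alt_eq, ← altL_kt h1, ← altL_kt h2, hom_eval, hom_eval, h.pure]
    simp only [kt_lift x (some s)]

end lift

end

end Vale.Agent.P057TP
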