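import Vale.Agent.P057PC.Defs
import Mathlib.RingTheory.MvPolynomial.WeightedHomogeneous

/-!
Towers, canonical systems, states, morphisms, certificates.
-/

set_option linter.all false

open Matrix Finset
open Vale.Agent.P267.H775 Vale.Agent.P057G Vale.Agent.P057PC

namespace Vale.Agent.P057TP

noncomputable section

/-- a pointed tower: coordinates with levels, homogeneous polynomials, a Gram matrix and the
linear form that gives the integer -/
structure Tow where
  ι : Type
  [fi : Fintype ι]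
  [de : DecidableEq ι]
  lv : ι → ℕ
  q : ι → MvPolynomial ι ℝ
  G : Matrix ι ι ℝ
  el : ι → ℤ

attribute [instance] Tow.fi Tow.de

namespace Tow

variable (T : Tow)

/-- the untyped tower of the counting lemma -/
def tw : Tw T.ι Unit := ⟨T.lv, T.q, T.G, fun a s => Multiset.card s = T.lv a⟩

structure Ok (s : ℕ) (N : ℝ) : Prop where
  pos : ∀ a, 0 < T.lv a
  le : ∀ a, T.lv a ≤ s
  hom : ∀ a, (T.q a).IsWeightedHomogeneous T.lv (T.lv a)
  low : ∀ a, ∀ j ∈ (T.q a).vars, T.lv j < T.lv a
  pd : T.G.PosDef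
  blk : ∀ a b, T.lv a ≠ T.lv b → T.G a b = 0
  el1 : ∀ a, T.lv a ≠ 1 → T.el a = 0
  sep : ∀ z : T.ι → ℤ, z ≠ 0 → T.el ⬝ᵥ z = 0 → 1 ≤ qq T.G (toR z)
  elN : ∀ x : T.ι → ℝ, (toR T.el ⬝ᵥ x) ^ 2 ≤ N ^ 2 * qq T.G x

/-- the number of coordinates of level `e` -/
def dm (e : ℕ) : ℝ := ((univ.filter fun a => T.lv a = e).card : ℝ)

/-- the logarithmic covolume of level `e` -/
def yy (N : ℝ) (e : ℕ) : ℝ :=
  Real.log (bk T.G fun a => T.lv a = e).det / 2 + if e = 1 then Real.log N else 0

/-- complexity bounds -/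
def Cx (N : ℝ) (P : ℕ → ℝ) : Prop := ∀ e, T.dm e ≤ P e ∧ T.yy N e ≤ P e

/-- triangular growth of the complexity -/
def Grow (N : ℝ) (T' : Tow) (Q : ℕ → ℝ) : Prop :=
  ∀ e, T'.dm e ≤ T.dm e + Q (e + 1) ∧ T'.yy N e ≤ T.yy N e + (T.dm e + 1) * Q (e + 1)

/-- regularity of the levels up to `d`, in the form of the counting lemma -/
def LFd (d : ℕ) (n A : ℝ) : Prop := T.tw.LF d ⌊n⌋₊ (Real.exp A) (Real.exp (-A))

/-- the position vector of a real point -/
def ps (y : T.ι → ℝ) : T.ι → ℝ := fun a => y a - MvPolynomial.eval y (T.q a)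

/-- the squared length of the position at level `e` -/
def ln (e : ℕ) (y : T.ι → ℝ) : ℝ := qq T.G fun a => if T.lv a = e then T.ps y a else 0

/-- the unit ball of the levels below `j` -/
def Ball (j : ℕ) (y : T.ι → ℝ) : Prop := ∀ e, e < j → T.ln e y ≤ 1

/-- the Gram matrix of level `e` doubled -/
def scl (e : ℕ) : Tow where
  ι := T.ι
  lv := T.lv
  q := T.q
  G := Matrix.of fun a b => if T.lv a = e then 2 * T.G a b else T.G a b
  el := T.el

end Tow

/-- an integer polynomial map on real points -/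
def ap {ι κ : Type} (φ : ι → MvPolynomial κ ℤ) (y : κ → ℝ) : ι → ℝ :=
  fun a => MvPolynomial.aeval y (φ a)

/-- a homogeneous morphism from `T'` to the levels below `j` of `T` that does not expand
positions -/
structure Mor (j : ℕ) (T' T : Tow) (φ : T.ι → MvPolynomial T'.ι ℤ) : Prop where
  hom : ∀ a, T.lv a < j → (φ a).IsWeightedHomogeneous T'.lv (T.lv a)
  ball : ∀ y, T'.Ball j y → T.Ball j (ap φ y)
  el : 1 < j → ∀ y, toR T'.el ⬝ᵥ y = toR T.el ⬝ᵥ ap φ y

/-- `T'` refines the levels below `j` of `T`; the levels from `j` on are only pulled back -/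
def Up (j : ℕ) (T' T : Tow) : Prop :=
  ∃ (φ : T.ι → MvPolynomial T'.ι ℤ) (e : {a // j ≤ T.lv a} ≃ {a // j ≤ T'.lv a}),
    Mor j T' T φ ∧ (∀ a, T'.lv (e a) = T.lv a) ∧ (∀ a, φ a.1 = MvPolynomial.X (e a).1) ∧
    (∀ a y, MvPolynomial.eval y (T'.q (e a)) = MvPolynomial.eval (ap φ y) (T.q a)) ∧
    (∀ a b, T'.G (e a) (e b) = T.G a b) ∧ ∀ a, T'.el (e a) = T.el a

/-- a certificate of degeneracy at level `j`: after the refinement `T'` of the lower levels the
short primitive form `k` of the polynomials of level `j` is an integer polynomial plus a bounded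
function -/
def Cert (T : Tow) (N : ℝ) (j : ℕ) (H : ℝ) (D Y : ℕ → ℝ) : Prop :=
  ∃ (T' : Tow) (φ : T.ι → MvPolynomial T'.ι ℤ) (k : T.ι → ℤ) (I : MvPolynomial T'.ι ℤ),
    T'.Ok (j - 1) N ∧ Mor j T' T φ ∧ (∀ e, e < j → T'.dm e ≤ D e ∧ T'.yy N e ≤ Y e) ∧
    (∀ a, T.lv a ≠ j → k a = 0) ∧ (∃ w, k ⬝ᵥ w = 1) ∧
    (∀ x : T.ι → ℝ, (toR k ⬝ᵥ x) ^ 2 ≤ H * qq T.G x) ∧ I.IsWeightedHomogeneous T'.lv j ∧
    ∀ y, T'.Ball j y →
      |∑ a, (k a : ℝ) * MvPolynomial.eval (ap φ y) (T.q a) - MvPolynomial.aeval y I| ≤ 1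

/-! ### Cube systems over a special class -/

/-- polynomials in the vertex variables and in the base variable `none` -/
abbrev Lam (R : Type) [CommRing R] (W : Type) := MvPolynomial (Option W) R

/-- the value at the face `A`: vertex variables are indicators, the base variable is one -/
def evA {R W : Type} [CommRing R] [DecidableEq W] (A : Finset W) : Lam R W →+* R :=
  MvPolynomial.eval fun x => x.elim 1 fun w => if w ∈ A then 1 else 0

/-- the base variable put to zero -/
def kt {R W : Type} [CommRing R] : Lam R W →+* Lam R W :=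
  (MvPolynomial.aeval fun x : Option W =>
    x.elim (0 : Lam R W) fun w => MvPolynomial.X (some w)).toRingHom

/-- a family of polynomial maps, one for every base, with coefficients in `Lam` -/
structure Fam (R : Type) [CommRing R] (ι κ W S : Type) where
  fn : Option S → ι → MvPolynomial κ (Lam R W)

namespace Fam

variable {R ι κ W S : Type} [CommRing R] (Ψ : Fam R ι κ W S)

/-- the part without vertex and base variables -/
def top (a : ι) : MvPolynomial κ R := MvPolynomial.map MvPolynomial.constantCoeff (Ψ.fn none a)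

/-- joint homogeneity; the part free of the base variable does not depend on the base -/
structure Ok (lv : ι → ℕ) (lw : κ → ℕ) : Prop where
  hom : ∀ o a β μ, MvPolynomial.coeff μ (MvPolynomial.coeff β (Ψ.fn o a)) ≠ 0 →
    Finsupp.weight lw β + Finsupp.degree μ = lv a
  pure : ∀ s a, MvPolynomial.map kt (Ψ.fn (some s) a) = MvPolynomial.map kt (Ψ.fn none a)

variable [DecidableEq W]

/-- the polynomial at the point of the face `A` over the base `o` -/
def at' (o : Option S) (A : Finset W) (a : ι) : MvPolynomial κ R :=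
  MvPolynomial.map (evA A) (Ψ.fn o a)

/-- the alternating sum over the cube of `A` of the values at the points `x` -/
def alt (x : Option S → Finset W → κ → R) (o : Option S) (A : Finset W) (a : ι) : R :=
  ∑ B ∈ A.powerset, (-1) ^ (A.card - B.card) * MvPolynomial.eval (x o B) (Ψ.at' o B a)

end Fam

variable {C W S : Type}

/-- the labels: a coordinate of level below `m` with a face of `W`, of full size without special
vertex and of smaller size with a special vertex -/
def Lb (T : Tow) (cl : W → C) (S : Type) (m : ℕ) : Type :=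
  {x : T.ι × Finset W × Option S // T.lv x.1 < m ∧ Set.InjOn cl x.2.1 ∧
    x.2.2.elim (x.2.1.card = T.lv x.1) fun _ => x.2.1.card < T.lv x.1}

instance (T : Tow) (cl : W → C) (m : ℕ) : DecidableEq (Lb T cl S m) := Classical.decEq _

instance [Finite W] [Finite S] (T : Tow) (cl : W → C) (m : ℕ) : Finite (Lb T cl S m) := by
  have := Fintype.ofFinite W
  have := Fintype.ofFinite S
  unfold Lb; infer_instance

instance [Finite W] [Finite S] (T : Tow) (cl : W → C) (m : ℕ) : Fintype (Lb T cl S m) :=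
  Fintype.ofFinite _

namespace Lb

variable {T : Tow} {cl : W → C} {m : ℕ} (l : Lb T cl S m)

def cd : T.ι := l.1.1
def fc : Finset W := l.1.2.1
def bs : Option S := l.1.2.2

/-- labels of the linear fibres: pure, or linear in the special vertex -/
def Pure : Prop := l.bs = none ∨ l.fc.card + 1 = T.lv l.cd

end Lb

open Classical in
/-- the point of the face `A` over the base `o` -/
def pt [Fintype W] [Fintype S] {T : Tow} {cl : W → C} {m : ℕ} {R : Type} [AddCommMonoid R]
    (z : Lb T cl S m → R) (o : Option S) (A : Finset W) (a : T.ι) : R :=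
  ∑ l, if l.cd = a ∧ l.fc ⊆ A ∧ (l.bs = none ∨ l.bs = o) then z l else 0

open Classical in
/-- the Gram matrix of the labels -/
def Gam (T : Tow) (cl : W → C) (S : Type) (m : ℕ) : Matrix (Lb T cl S m) (Lb T cl S m) ℝ :=
  Matrix.of fun l l' => if l.fc = l'.fc ∧ l.bs = l'.bs then T.G l.cd l'.cd else 0

open Classical in
/-- the transversals of the classes of `W` -/
def cells [Fintype W] (cl : W → C) : Finset (Finset W) :=
  univ.filter fun c => Set.InjOn cl c ∧ ∀ i, ∃ v ∈ c, cl v = i

/-- the data of a system: the polynomials with their lower order terms, offsets on the cells -/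
structure Sys (T : Tow) (W S : Type) where
  fam : Fam ℝ T.ι T.ι W S
  off : Finset W → S → ℤ

namespace Sys

variable {T : Tow} (Z : Sys T W S)

structure Ok : Prop where
  fam : Z.fam.Ok T.lv T.lv
  top : ∀ a, Z.fam.top a = T.q a

variable [Fintype W] [DecidableEq W] [Fintype S] (cl : W → C) (m : ℕ)

/-- the centres, real arguments -/
def pr (x : Lb T cl S m → ℝ) (l : Lb T cl S m) : ℝ := Z.fam.alt (pt x) l.bs l.fc l.cd

/-- the position vector -/
def ps (z : Lb T cl S m → ℤ) : Lb T cl S m → ℝ := toR z - Z.pr cl m (toR z)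

/-- the length of the position vector -/
def nrm (z : Lb T cl S m → ℤ) : ℝ := Real.sqrt (qq (Gam T cl S m) (Z.ps cl m z))

/-- the normalised weight of a configuration -/
def w (z : Lb T cl S m → ℤ) : ℝ := ng (Gam T cl S m) (Z.ps cl m z)

/-- the point of the cell `(c, s)`: sums of labels below level `m`, free coordinates above -/
def full (z : Lb T cl S m → ℤ) (c : Finset W) (s : S) (y : {a // m ≤ T.lv a} → ℤ) (a : T.ι) :
    ℤ := if h : m ≤ T.lv a then y ⟨a, h⟩ else pt z (some s) c a

/-- the function on the cell `(c, s)`: `f` summed against the weights of the upper levels -/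
def F (f : ℤ → ℝ) (z : Lb T cl S m → ℤ) (c : Finset W) (s : S) : ℝ :=
  ∑' y : {a // m ≤ T.lv a} → ℤ,
    ng (bk T.G fun a => m ≤ T.lv a)
        (fun a => (y a : ℝ) - MvPolynomial.eval (toR (full cl m z c s y)) (Z.fam.at' (some s) c a)) *
      f (Z.off c s + T.el ⬝ᵥ full cl m z c s y)

/-- the product over the cells -/
def PF (f : ℤ → ℝ) (z : Lb T cl S m → ℤ) : ℝ := ∏ c ∈ cells cl, ∏ s, Z.F cl m f z c s

/-- the product over the cells minus the reference value -/
def Ex0 (f : ℤ → ℝ) (θ : ℝ) (z : Lb T cl S m → ℤ) : ℝ :=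
  Z.PF cl m f z - θ ^ ((cells cl).card * Fintype.card S)

/-- a signed state: `H` is bounded and has mean at least `κ`, with absolute excess `σ` -/
def St (H : (Lb T cl S m → ℤ) → ℝ) (B κ σ : ℝ) : Prop :=
  (∀ z, |H z| ≤ B) ∧ σ ≤ ∑' z, Z.w cl m z * (H z - κ)

/-- the state before the copies are taken: a weight on the pure labels of `W` -/
def SP (f : ℤ → ℝ) (θ B κ σ : ℝ) : Prop :=
  ∃ u : (Lb T cl S m → ℤ) → ℝ, (∀ z z', (∀ l, l.bs = none → z l = z' l) → u z = u z') ∧
    (∀ z, 0 ≤ u z ∧ u z ≤ 1) ∧ Z.St cl m (fun z => u z * Z.Ex0 cl m f θ z) B κ σ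

end Sys

/-- `p` copies of every vertex -/
def Sys.blow {T : Tow} {n : ℕ} (Z : Sys T (Fin n) Unit) (p : ℕ) :
    Sys T (Fin n × Fin p) (Fin p) where
  fam := ⟨fun o a => MvPolynomial.map (MvPolynomial.aeval fun x : Option (Fin n) =>
    x.elim (MvPolynomial.X none : Lam ℝ (Fin n × Fin p))
      fun i => ∑ l : Fin p, MvPolynomial.X (some (i, l))).toRingHom
    (Z.fam.fn (o.map fun _ => ()) a)⟩
  off _ _ := Z.off univ ()

/-- the homogeneous grid state on `n` pure classes and the special class, `p` copies, labels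
below level `n + 1` -/
def GS (T : Tow) (n : ℕ) (f : ℤ → ℝ) (p : ℕ) (θ : ℝ) : Prop :=
  ∃ Z : Sys T (Fin n) Unit, Z.Ok ∧ θ ^ (p ^ (n + 1)) ≤
    ∑' z, (Z.blow p).w Prod.fst (n + 1) z * (Z.blow p).PF Prod.fst (n + 1) f z

/-- the substitution of labels given by an integer family -/
def Fam.sub [Fintype W] [DecidableEq W] [Fintype S] {T T' : Tow} (Ψ : Fam ℤ T.ι T'.ι W S)
    (cl : W → C) (m : ℕ) (z : Lb T' cl S m → ℤ) (l : Lb T cl S m) : ℤ := Ψ.alt (pt z) l.bs l.fc l.cd

/-- a map of systems: an integer family whose top part is a morphism, compatible with the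
functions on the cells, that maps the ball of radius `ρ ≤ R` into the ball of radius `ρ + r` -/
structure Sub [Fintype W] [DecidableEq W] [Fintype S] {T T' : Tow} (cl : W → C) (m : ℕ)
    (Z' : Sys T' W S) (Z : Sys T W S) (Ψ : Fam ℤ T.ι T'.ι W S) (R r : ℝ) : Prop where
  ok : Ψ.Ok T.lv T'.lv
  mor : Mor m T' T Ψ.top
  cel : ∀ f z, ∀ c ∈ cells cl, ∀ s, Z'.F cl m f z c s = Z.F cl m f (Ψ.sub cl m z) c s
  blk : ∀ z, Z'.nrm cl m z ≤ R → Z.nrm cl m (Ψ.sub cl m z) ≤ Z'.nrm cl m z + r

/-- a ladder of parameters -/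
structure Lad (s : ℕ) (N c : ℝ) (P : ℕ → ℝ) : Prop where
  anti : ∀ e, P (e + 1) ≤ P e
  big : ∀ e, c ≤ P e
  lg : Real.log (P 0) ≤ P (s + 1)
  one : 1 ≤ N
  lN : Real.log N ≤ P 1

/-- a function with values in the unit interval -/
def Unit01 (f : ℤ → ℝ) : Prop := ∀ x, 0 ≤ f x ∧ f x ≤ 1

/-- no progression of `k` terms -/
def APF (k : ℕ) (A : Finset ℤ) : Prop := ∀ a d : ℤ, 0 < d → ¬ ∀ i : ℕ, i < k → a + i * d ∈ A

/-- the indicator of a set -/
def ind (A : Finset ℤ) (x : ℤ) : ℝ := if x ∈ A then 1 else 0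

/-- a set of labels that contains the labels of lower level on the faces it sees -/
def Clo {T : Tow} {cl : W → C} {m : ℕ} (Q : Lb T cl S m → Prop) : Prop :=
  ∀ l l', Q l → l'.fc ⊆ l.fc → (l'.bs = none ∨ l'.bs = l.bs) → T.lv l'.cd < T.lv l.cd → Q l'

open Classical in
/-- the centres of the subsystem on the labels in `Q`, shifted by `c` -/
def Sys.pq [Fintype W] [DecidableEq W] [Fintype S] {T : Tow} (Z : Sys T W S) (cl : W → C) (m : ℕ)
    (Q : Lb T cl S m → Prop) (c : {l // Q l} → ℝ) (z : {l // Q l} → ℤ) (l : {l // Q l}) : ℝ :=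
  Z.pr cl m (fun l' => if h : Q l' then (z ⟨l', h⟩ : ℝ) else 0) l + c l

end

end Vale.Agent.P057TP
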