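import Vale.Agent.P057TP.Plan
import Mathlib.Algebra.MvPolynomial.Monad

/-!
Operations on towers and systems, and the statements of the moves in place.
-/

set_option linter.all false

open Matrix Finset
open Vale.Agent.P267.H775 Vale.Agent.P057G Vale.Agent.P057PC

namespace Vale.Agent.P057TP

noncomputable section

variable {C W S : Type}

/-- integer coefficients read in a ring -/
def lamZ (R : Type) [CommRing R] {W κ : Type} :
    MvPolynomial κ (Lam ℤ W) →+* MvPolynomial κ (Lam R W) :=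
  MvPolynomial.map (MvPolynomial.map (Int.castRingHom R))

/-- composition with an integer family -/
def Fam.cmp {R ι κ ν : Type} [CommRing R] (Φ : Fam R ι κ W S) (Ψ : Fam ℤ κ ν W S) :
    Fam R ι ν W S :=
  ⟨fun o a => MvPolynomial.bind₁ (fun b => lamZ R (Ψ.fn o b)) (Φ.fn o a)⟩

/-- the family that renames the variables -/
def Fam.ren {ι κ : Type} (W S : Type) (e : ι → κ) : Fam ℤ ι κ W S :=
  ⟨fun _ a => MvPolynomial.X (e a)⟩

/-- the monomial of a face, completed by the base variable to the degree `d` -/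
def mon {R : Type} [CommRing R] (A : Finset W) (d : ℕ) : Lam R W :=
  (∏ w ∈ A, MvPolynomial.X (some w)) * MvPolynomial.X none ^ (d - A.card)

open Classical in
/-- a configuration of labels as an element of `Lam`, for the base `o` and the coordinate `a` -/
def lift [Fintype W] [Fintype S] {T : Tow} {cl : W → C} {m : ℕ} {R : Type} [CommRing R]
    (x : Lb T cl S m → R) (o : Option S) (a : T.ι) : Lam R W :=
  ∑ l, if l.cd = a ∧ (l.bs = none ∨ l.bs = o) then MvPolynomial.C (x l) * mon l.fc (T.lv a) else 0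

/-- the Gram matrix of level `e` multiplied by `lam e` -/
def Tow.nar (T : Tow) (lam : ℕ → ℝ) : Tow where
  ι := T.ι
  lv := T.lv
  q := T.q
  G := Matrix.of fun a b => lam (T.lv a) * T.G a b
  el := T.el

/-- the system on the narrowed tower with the centres moved by `c` -/
def Sys.nar [Fintype W] [Fintype S] {T : Tow} (Z : Sys T W S) {cl : W → C} {m : ℕ} (lam : ℕ → ℝ)
    (c : Lb T cl S m → ℝ) : Sys (T.nar lam) W S where
  fam := ⟨fun o a => Z.fam.fn o a + MvPolynomial.C (lift c o a)⟩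
  off := Z.off

/-- the coefficients of the old variables of the same level -/
def Tow.lin (T : Tow) {κ : Type} (lk : κ → ℕ) (Q : κ → MvPolynomial T.ι ℝ) : Matrix κ T.ι ℝ :=
  Matrix.of fun k b => if T.lv b = lk k then MvPolynomial.coeff (Finsupp.single b 1) (Q k) else 0

/-- new coordinates near the values of the polynomials `Q` -/
def Tow.add (T : Tow) (κ : Type) [Fintype κ] [DecidableEq κ] (lk : κ → ℕ)
    (Q : κ → MvPolynomial T.ι ℝ) (Gk : Matrix κ κ ℝ) : Tow where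
  ι := T.ι ⊕ κ
  lv := Sum.elim T.lv lk
  q := Sum.elim (fun a => MvPolynomial.rename Sum.inl (T.q a)) fun k =>
    MvPolynomial.rename Sum.inl
      (MvPolynomial.bind₁ (fun b => if T.lv b = lk k then T.q b else MvPolynomial.X b) (Q k))
  G := (fromBlocks 1 0 (-T.lin lk Q) 1)ᵀ * fromBlocks T.G 0 0 Gk * fromBlocks 1 0 (-T.lin lk Q) 1
  el := Sum.elim T.el 0

/-- the system with the new coordinates; `c` are the centres of the new labels -/
def Sys.add [Fintype W] [Fintype S] {T : Tow} (Z : Sys T W S) {cl : W → C} {m : ℕ} (κ : Type)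
    [Fintype κ] [DecidableEq κ] (lk : κ → ℕ) (Q : κ → MvPolynomial T.ι ℝ) (Gk : Matrix κ κ ℝ)
    (c : Lb (T.add κ lk Q Gk) cl S m → ℝ) : Sys (T.add κ lk Q Gk) W S where
  fam := ⟨fun o a => MvPolynomial.C (lift c o a) + Sum.elim
    (fun a => MvPolynomial.rename Sum.inl (Z.fam.fn o a))
    (fun k => MvPolynomial.rename Sum.inl (MvPolynomial.bind₁
      (fun b => if T.lv b = lk k then Z.fam.fn o b else MvPolynomial.X b)
      (MvPolynomial.map MvPolynomial.C (Q k)))) a⟩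
  off := Z.off

/-- the levels from `j` on are pulled back along `Ψ` -/
structure Pull {T T' : Tow} (j : ℕ) (Z' : Sys T' W S) (Z : Sys T W S) (Ψ : Fam ℤ T.ι T'.ι W S)
    (e : {a // j ≤ T.lv a} ≃ {a // j ≤ T'.lv a}) : Prop where
  lv : ∀ a, T'.lv (e a) = T.lv a
  var : ∀ o a, Ψ.fn o a.1 = MvPolynomial.X (e a).1
  fn : ∀ o a, Z'.fam.fn o (e a) = (Z.fam.cmp Ψ).fn o a
  gr : ∀ a b, T'.G (e a) (e b) = T.G a b
  el : ∀ a, T'.el (e a) = T.el a

/-- narrowing in place is an exact mixture -/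
def NAR (s : ℕ) : Prop :=
  ∃ c : ℕ, ∀ (N : ℝ) (P : ℕ → ℝ) (T : Tow) (C W S : Type) [Fintype W] [DecidableEq W] [Fintype S]
    (cl : W → C) (m : ℕ) (Z : Sys T W S) (H : (Lb T cl S m → ℤ) → ℝ) (B κ σ : ℝ) (lam : ℕ → ℝ),
    Lad s N c P → T.Ok s N → T.Cx N P → Z.Ok → (Fintype.card W + Fintype.card S : ℝ) ≤ P 1 →
    B ≤ Real.exp (P 0) → 0 ≤ κ → Real.exp (-P 0) ≤ σ → (∀ e, 1 ≤ lam e) →
    (∀ e, m ≤ e → lam e = 1) → Z.St cl m H B κ σ →
    ∃ x : Lb T cl S m → ℝ, (∀ l, lam (T.lv l.cd) = 1 → x l = 0) ∧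
      qq (Gam T cl S m) x ≤ P 0 ^ c ∧ (T.nar lam).Ok s N ∧ (Z.nar lam x).Ok ∧
      (∀ z l, (Z.nar lam x).pr cl m z l = Z.pr cl m z l + x l) ∧
      (∀ f z A t, (Z.nar lam x).F cl m f z A t = Z.F cl m f z A t) ∧
      (Z.nar lam x).St cl m H B κ (σ / 2)

/-- new coordinates at random centres: an exact mixture -/
def ADD : Prop :=
  ∀ (s : ℕ) (N : ℝ) (T : Tow) (C W S : Type) [Fintype W] [DecidableEq W] [Fintype S]
    (cl : W → C) (m : ℕ) (Z : Sys T W S) (H : (Lb T cl S m → ℤ) → ℝ) (B κ σ : ℝ) (K : Type)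
    [Fintype K] [DecidableEq K] (lk : K → ℕ) (Q : K → MvPolynomial T.ι ℝ) (Gk : Matrix K K ℝ),
    T.Ok s N → Z.Ok → (∀ k, 0 < lk k ∧ lk k < m ∧ lk k ≤ s) →
    (∀ k, (Q k).IsWeightedHomogeneous T.lv (lk k)) → Gk.PosDef →
    (∀ k k', lk k ≠ lk k' → Gk k k' = 0) → (∀ z : K → ℤ, z ≠ 0 → 1 ≤ qq Gk (toR z)) →
    Z.St cl m H B κ σ →
    (T.add K lk Q Gk).Ok s N ∧ Up m (T.add K lk Q Gk) T ∧
    (∀ e, (T.add K lk Q Gk).dm e = T.dm e + (univ.filter fun k => lk k = e).card ∧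
      (T.add K lk Q Gk).yy N e = T.yy N e + Real.log (bk Gk fun k => lk k = e).det / 2) ∧
    ∃ x : Lb (T.add K lk Q Gk) cl S m → ℝ, (∀ l, |x l| ≤ 1) ∧
      (∀ l a, l.cd = Sum.inl a → x l = 0) ∧ (Z.add K lk Q Gk x).Ok ∧
      (∀ R, Sub cl m (Z.add K lk Q Gk x) Z (Fam.ren W S Sum.inl) R 0) ∧
      (Z.add K lk Q Gk x).St cl m (fun z => H ((Fam.ren W S Sum.inl).sub cl m z)) B κ σ

/-- localisation of the levels below `j` along a morphism: the old positions are pinned, the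
coordinates of `T₀` are centred and narrowed, link coordinates are added -/
def XLOC (s : ℕ) : Prop :=
  ∃ c : ℕ, ∀ (N : ℝ) (P : ℕ → ℝ) (T T₀ : Tow) (φ : T.ι → MvPolynomial T₀.ι ℤ) (C W S : Type)
    [Fintype W] [DecidableEq W] [Fintype S] (cl : W → C) (m j : ℕ) (Z : Sys T W S)
    (H : (Lb T cl S m → ℤ) → ℝ) (B κ σ : ℝ), Lad s N c P → T.Ok s N → T.Cx N P → Z.Ok → 1 ≤ j →
    j ≤ m → j ≤ s + 1 → T₀.Ok (j - 1) N → T₀.Cx N P → Mor j T₀ T φ →
    (Fintype.card W + Fintype.card S : ℝ) ≤ P j → B ≤ Real.exp (P j) → Real.exp (-P j) ≤ κ →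
    Real.exp (-P 0) ≤ σ → Z.St cl m H B κ σ →
    ∃ (T' : Tow) (Z' : Sys T' W S) (Ψ : Fam ℤ T.ι T'.ι W S) (ε : T₀.ι ↪ T'.ι)
      (e : {a // j ≤ T.lv a} ≃ {a // j ≤ T'.lv a}), T'.Ok s N ∧ Z'.Ok ∧ Up j T' T ∧
      Pull j Z' Z Ψ e ∧ Sub cl m Z' Z Ψ (Real.exp (P (s + 1))) (P 0 ^ c) ∧
      Z'.St cl m (fun z => H (Ψ.sub cl m z)) B ((1 - 1 / P 0) * κ) (σ * Real.exp (-P 1 ^ c)) ∧
      (∀ i, i < j → T'.dm i ≤ T₀.dm i + P (i + 1) ^ c ∧
        T'.yy N i ≤ T₀.yy N i + (T₀.dm i + 1) * P (i + 1) ^ c) ∧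
      (∀ a, T'.lv (ε a) = T₀.lv a ∧ T'.el (ε a) = T₀.el a ∧ ∀ o, Z'.fam.fn o (ε a) =
        MvPolynomial.rename ε (MvPolynomial.map MvPolynomial.C (T₀.q a))) ∧
      (∀ x : T'.ι → ℝ, Real.exp (P j) * qq T₀.G (x ∘ ε) ≤ qq T'.G x) ∧
      (∀ a, T.lv a < j → Ψ.top a = MvPolynomial.rename ε (φ a)) ∧
      ∃ x : Lb T cl S m → ℝ, ∀ z, Z'.nrm cl m z ≤ Real.exp (P (s + 1)) →
        qq (Gam T cl S m) (fun l => if T.lv l.cd < j then Z.ps cl m (Ψ.sub cl m z) l - x l else 0) ≤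
          Real.exp (-P j)

end

end Vale.Agent.P057TP
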